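import Mathlib

/-!
P225, module C: all derivatives of the regular core solution are bounded by the solution itself.
-/

noncomputable section

namespace Vale.Agent.P225.SeriesAux

open Set
open scoped Nat ContDiff

/-- The `k`-th term of the core solution. -/
def cTerm (a k : ℕ) (s : ℝ) : ℝ :=
  (s / 4) ^ k / ((k.factorial : ℝ) * (Nat.ascFactorial (a + 2) k : ℝ))

/-- The core solution (the same series as `coreFn`). -/
def cFn (a : ℕ) (s : ℝ) : ℝ := ∑' k : ℕ, cTerm a k s

theorem asc_one_le (a k : ℕ) : (1 : ℝ) ≤ (Nat.ascFactorial (a + 2) k : ℝ) := by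
  exact_mod_cast Nat.ascFactorial_pos (a + 1) k

theorem cTerm_abs_le (a k : ℕ) (s : ℝ) : |cTerm a k s| ≤ |s / 4| ^ k / (k.factorial : ℝ) := by
  have h1 : (0 : ℝ) < k.factorial := by exact_mod_cast k.factorial_pos
  have h2 := asc_one_le a k
  rw [cTerm, abs_div, abs_pow, abs_of_pos (mul_pos h1 (lt_of_lt_of_le one_pos h2))]
  exact div_le_div_of_nonneg_left (by positivity) h1 (le_mul_of_one_le_right h1.le h2)

theorem cTerm_summable (a : ℕ) (s : ℝ) : Summable fun k => cTerm a k s :=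
  Summable.of_norm_bounded (Real.summable_pow_div_factorial |s / 4|) fun k => cTerm_abs_le a k s

theorem hasDerivAt_cTerm (a k : ℕ) (s : ℝ) :
    HasDerivAt (fun t => cTerm a (k + 1) t) (cTerm (a + 1) k s / (4 * ((a : ℝ) + 2))) s := by
  have h := (((hasDerivAt_id s).div_const 4).fun_pow (k + 1)).div_const
    (((k + 1).factorial : ℝ) * (Nat.ascFactorial (a + 2) (k + 1) : ℝ))
  refine h.congr_deriv ?_
  have e : Nat.ascFactorial (a + 2) (k + 1) = (a + 2) * Nat.ascFactorial (a + 3) k := by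
    have h1 := Nat.succ_ascFactorial (a + 2) k
    rw [Nat.ascFactorial_succ, ← h1]
  have hk : (k.factorial : ℝ) ≠ 0 := by exact_mod_cast k.factorial_pos.ne'
  have ha : (Nat.ascFactorial (a + 3) k : ℝ) ≠ 0 := by
    exact_mod_cast (Nat.ascFactorial_pos (a + 2) k).ne'
  rw [cTerm, e, Nat.factorial_succ, show a + 1 + 2 = a + 3 from rfl]
  simp only [id, Nat.add_sub_cancel]
  push_cast
  field_simp

theorem hasDerivAt_cFn (a : ℕ) (s : ℝ) :
    HasDerivAt (cFn a) (cFn (a + 1) s / (4 * ((a : ℝ) + 2))) s := by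
  set R := |s| + 1 with hR
  have hu : Summable fun k : ℕ => |R / 4| ^ k / (k.factorial : ℝ) :=
    Real.summable_pow_div_factorial _
  have hs : s ∈ Ioo (-R) R := abs_lt.1 (lt_add_one _)
  have hd := hasDerivAt_tsum_of_isPreconnected (g := fun k t => cTerm a (k + 1) t)
    (g' := fun k t => cTerm (a + 1) k t / (4 * ((a : ℝ) + 2))) hu isOpen_Ioo isPreconnected_Ioo
    (fun k t _ => hasDerivAt_cTerm a k t) (fun k t ht => ?_) hs
    ((summable_nat_add_iff 1).2 (cTerm_summable a s)) hs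
  · have e : cFn a = fun t => 1 + ∑' k, cTerm a (k + 1) t := funext fun t => by
      rw [cFn, (cTerm_summable a t).tsum_eq_zero_add]
      simp [cTerm]
    rw [e, cFn, ← tsum_div_const]
    exact hd.const_add 1
  · rw [Real.norm_eq_abs, abs_div]
    refine (div_le_self (abs_nonneg _) ?_).trans ((cTerm_abs_le (a + 1) k t).trans ?_)
    · rw [abs_of_pos (by positivity)]
      have : (0 : ℝ) ≤ a := Nat.cast_nonneg a
      linarith
    · refine div_le_div_of_nonneg_right (pow_le_pow_left₀ (abs_nonneg _) ?_ k) (by positivity)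
      rw [abs_div, abs_div]
      exact div_le_div_of_nonneg_right ((abs_lt.2 ht).le.trans (le_abs_self R)) (abs_nonneg _)

theorem cFn_iteratedDeriv (j : ℕ) : ∀ a : ℕ, ∃ b : ℝ, 0 ≤ b ∧ b ≤ 1 ∧
    iteratedDeriv j (cFn a) = fun s => b * cFn (a + j) s := by
  induction j with
  | zero => exact fun a => ⟨1, zero_le_one, le_rfl, by simp⟩
  | succ j ih =>
    intro a
    obtain ⟨b, hb0, hb1, hb⟩ := ih a
    refine ⟨b / (4 * ((a + j : ℕ) + 2 : ℝ)), by positivity, (div_le_self hb0 ?_).trans hb1, ?_⟩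
    · have : (0 : ℝ) ≤ ((a + j : ℕ) : ℝ) := Nat.cast_nonneg _
      linarith
    · rw [iteratedDeriv_succ, hb]
      funext s
      rw [((hasDerivAt_cFn (a + j) s).const_mul b).deriv, Nat.add_assoc]
      ring

theorem contDiff_cFn (a : ℕ) : ContDiff ℝ ∞ (cFn a) := by
  refine contDiff_of_differentiable_iteratedDeriv fun m _ s => ?_
  obtain ⟨b, -, -, hb⟩ := cFn_iteratedDeriv m a
  rw [hb]
  exact ((hasDerivAt_cFn (a + m) s).const_mul b).differentiableAt

theorem cFn_nonneg (a : ℕ) {s : ℝ} (hs : 0 ≤ s) : 0 ≤ cFn a s :=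
  tsum_nonneg fun k => div_nonneg (by positivity) (by positivity)

theorem cFn_le (a j : ℕ) {s S : ℝ} (hs : 0 ≤ s) (hS : s ≤ S) : cFn (a + j) s ≤ cFn a S := by
  refine Summable.tsum_le_tsum (fun k => ?_) (cTerm_summable _ s) (cTerm_summable a S)
  have h2 := asc_one_le a k
  have h3 : (Nat.ascFactorial (a + 2) k : ℝ) ≤ (Nat.ascFactorial (a + j + 2) k : ℝ) := by
    exact_mod_cast Nat.ascFactorial_le k (by omega)
  unfold cTerm
  have : 0 ≤ S := hs.trans hS
  have : (0 : ℝ) < k.factorial := by exact_mod_cast k.factorial_pos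
  have : (0 : ℝ) < (Nat.ascFactorial (a + 2) k : ℝ) := lt_of_lt_of_le one_pos h2
  gcongr

/-- Derivatives of `s ↦ cFn a (e s)` on `[0, S]`. -/
theorem cFn_scaled_bound (a : ℕ) {e S s : ℝ} (he : 0 ≤ e) (hs : 0 ≤ s) (hS : s ≤ S) (j : ℕ) :
    ‖iteratedFDeriv ℝ j (fun t => ((cFn a (e * t) : ℝ) : ℂ)) s‖ ≤ e ^ j * cFn a (e * S) := by
  have hc : ContDiff ℝ ∞ fun t => cFn a (e * t) :=
    (contDiff_cFn a).comp (contDiff_const.mul contDiff_id)
  have h1 := Complex.ofRealLI.norm_iteratedFDeriv_comp_left (f := fun t => cFn a (e * t))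
    (x := s) (hc.contDiffAt) (i := j) (by exact_mod_cast le_top)
  refine le_of_eq_of_le h1 ?_
  rw [norm_iteratedFDeriv_eq_norm_iteratedDeriv,
    iteratedDeriv_comp_const_mul ((contDiff_cFn a).of_le (by exact_mod_cast le_top)) e]
  obtain ⟨b, hb0, hb1, hb⟩ := cFn_iteratedDeriv j a
  rw [hb]
  have h2 : 0 ≤ cFn (a + j) (e * s) := cFn_nonneg _ (by positivity)
  have h3 := cFn_le a j (mul_nonneg he hs) (mul_le_mul_of_nonneg_left hS he)
  rw [Real.norm_eq_abs, abs_of_nonneg (by positivity)]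
  refine mul_le_mul_of_nonneg_left ((mul_le_of_le_one_left h2 hb1).trans h3) (by positivity)

end Vale.Agent.P225.SeriesAux
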