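import Vale.Agent.P225.SU2.Functions

/-!
P225, module C: bounds for all derivatives of the representations. The derivative of `rep (a + 1)`
is a linear image of `rep a` of norm at most `4 (a + 1)`.
-/

noncomputable section

namespace Vale.Agent.P225.SeriesAux

open Matrix SU2 Finset
open scoped Quaternion Matrix.Norms.L2Operator ContDiff

attribute [local irreducible] rep

/-- One more derivative when the derivative is a bilinear image of a function. -/
theorem norm_iteratedFDeriv_succ_le {E F G : Type*} [NormedAddCommGroup E] [NormedSpace ℝ E]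
    [NormedAddCommGroup F] [NormedSpace ℝ F] [NormedAddCommGroup G] [NormedSpace ℝ G]
    {f : E → G} {f₀ : E → F} (hf₀ : ContDiff ℝ ∞ f₀) (B : F →ₗ[ℝ] E →ₗ[ℝ] G) {C : ℝ} (hC : 0 ≤ C)
    (hB : ∀ M w, ‖B M w‖ ≤ C * ‖M‖ * ‖w‖) (h : ∀ q w, fderiv ℝ f q w = B (f₀ q) w)
    (n : ℕ) (q : E) :
    ‖iteratedFDeriv ℝ (n + 1) f q‖ ≤ C * ‖iteratedFDeriv ℝ n f₀ q‖ := by
  rw [← norm_iteratedFDeriv_fderiv]
  have e : fderiv ℝ f = fun p => B.mkContinuous₂ C hB (f₀ p) :=
    funext fun p => ContinuousLinearMap.ext fun w => h p w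
  rw [e]
  refine ((B.mkContinuous₂ C hB).norm_iteratedFDeriv_comp_left (n := n) hf₀.contDiffAt
    (by exact_mod_cast le_top)).trans ?_
  gcongr
  exact LinearMap.mkContinuous₂_norm_le _ hC _

/-- The two embeddings of degree `a` into degree `a + 1`: `true` raises the index. -/
def stepMat (e : Bool) (a : ℕ) : Matrix (Fin (a + 2)) (Fin (a + 1)) ℂ := fun k' k =>
  if (k' : ℕ) = k + e.toNat then
    (Real.sqrt (if e then ((k : ℕ) + 1 : ℝ) else ((a + 1 - k : ℕ) : ℝ)) : ℂ) else 0

/-- The squared weight of an embedding. -/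
def stepWgt (e : Bool) (a : ℕ) (k : Fin (a + 1)) : ℝ :=
  if e then ((k : ℕ) + 1 : ℝ) else ((a + 1 - k : ℕ) : ℝ)

theorem stepMat_apply_self (e : Bool) (a : ℕ) (k : Fin (a + 1))
    (h : (k : ℕ) + e.toNat < a + 2) :
    stepMat e a ⟨(k : ℕ) + e.toNat, h⟩ k = (Real.sqrt (stepWgt e a k) : ℂ) := by
  simp [stepMat, stepWgt]

theorem stepMat_col (e : Bool) (a : ℕ) (k : Fin (a + 1)) (f : Fin (a + 2) → ℂ) :
    ∑ k', stepMat e a k' k * f k' = (Real.sqrt (stepWgt e a k) : ℂ) *
      f ⟨(k : ℕ) + e.toNat, by have := k.2; cases e <;> simp <;> omega⟩ := by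
  rw [sum_eq_single (⟨(k : ℕ) + e.toNat, by have := k.2; cases e <;> simp <;> omega⟩ : Fin (a + 2))]
  · rw [stepMat_apply_self]
  · intro k' _ hk
    rw [stepMat, if_neg fun h => hk (Fin.ext h), zero_mul]
  · simp

/-- The weights fit the normalisation of the monomials. -/
theorem stepWgt_choose (e : Bool) (a : ℕ) (k : Fin (a + 1)) :
    Real.sqrt (stepWgt e a k) * Real.sqrt ((a + 1).choose ((k : ℕ) + e.toNat)) =
      Real.sqrt ((a : ℝ) + 1) * Real.sqrt (a.choose k) := by
  rw [← Real.sqrt_mul (by unfold stepWgt; split_ifs <;> positivity),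
    ← Real.sqrt_mul (by positivity)]
  congr 1
  cases e
  · have h := Nat.choose_mul_succ_eq a k
    simp only [stepWgt, Bool.false_eq_true, if_false, Bool.toNat_false, Nat.add_zero]
    have h' : (((a + 1 - k : ℕ) : ℝ)) * ((a + 1).choose k : ℝ) = (a.choose k : ℝ) * ((a + 1 : ℕ) : ℝ) := by
      rw [mul_comm]; exact_mod_cast h.symm
    rw [h']
    push_cast
    ring
  · have h := Nat.add_one_mul_choose_eq a k
    simp only [stepWgt, if_true, Bool.toNat_true]
    have h' : ((a + 1).choose ((k : ℕ) + 1) : ℝ) * (((k : ℕ) : ℝ) + 1) = ((a : ℝ) + 1) * (a.choose k : ℝ) := by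
      exact_mod_cast h.symm
    linear_combination h'

theorem stepMat_col_pow (e : Bool) (a : ℕ) (k : Fin (a + 1)) (x : ℂ) :
    ∑ k', stepMat e a k' k * ((Real.sqrt ((a + 1).choose k') : ℂ) * x ^ (k' : ℕ)) =
      (Real.sqrt ((a : ℝ) + 1) : ℂ) * x ^ e.toNat *
        ((Real.sqrt (a.choose k) : ℂ) * x ^ (k : ℕ)) := by
  rw [stepMat_col e a k (fun k' => (Real.sqrt ((a + 1).choose k') : ℂ) * x ^ (k' : ℕ))]
  have h := congrArg (fun r : ℝ => (r : ℂ)) (stepWgt_choose e a k)
  simp only [Complex.ofReal_mul] at h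
  simp only [pow_add]
  linear_combination (x ^ (k : ℕ) * x ^ e.toNat) * h

/-- The generating function of an embedded matrix. -/
theorem genFun_step (e f : Bool) (a : ℕ) (M : Matrix (Fin (a + 1)) (Fin (a + 1)) ℂ) (x y : ℂ) :
    genFun (a + 1) (stepMat e a * M * (stepMat f a)ᵀ) x y =
      ((a : ℂ) + 1) * x ^ e.toNat * y ^ f.toNat * genFun a M x y := by
  have e1 : genFun (a + 1) (stepMat e a * M * (stepMat f a)ᵀ) x y =
      ∑ k, ∑ i, M k i * ((∑ k', stepMat e a k' k *
          ((Real.sqrt ((a + 1).choose k') : ℂ) * x ^ (k' : ℕ))) *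
        ∑ i', stepMat f a i' i * ((Real.sqrt ((a + 1).choose i') : ℂ) * y ^ (i' : ℕ))) := by
    simp only [genFun, Matrix.mul_apply, Matrix.transpose_apply, sum_mul, mul_sum]
    calc _ = ∑ i', ∑ i, ∑ k', ∑ k, stepMat e a k' k * M k i * stepMat f a i' i *
            ((Real.sqrt ((a + 1).choose k') : ℂ) * x ^ (k' : ℕ)) *
            ((Real.sqrt ((a + 1).choose i') : ℂ) * y ^ (i' : ℕ)) :=
          sum_congr rfl fun _ _ => sum_comm
      _ = ∑ i, ∑ i', ∑ k', ∑ k, stepMat e a k' k * M k i * stepMat f a i' i *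
            ((Real.sqrt ((a + 1).choose k') : ℂ) * x ^ (k' : ℕ)) *
            ((Real.sqrt ((a + 1).choose i') : ℂ) * y ^ (i' : ℕ)) := sum_comm
      _ = ∑ i, ∑ k, ∑ i', ∑ k', stepMat e a k' k * M k i * stepMat f a i' i *
            ((Real.sqrt ((a + 1).choose k') : ℂ) * x ^ (k' : ℕ)) *
            ((Real.sqrt ((a + 1).choose i') : ℂ) * y ^ (i' : ℕ)) :=
          sum_congr rfl fun _ _ => (sum_congr rfl fun _ _ => sum_comm).trans sum_comm
      _ = _ := by
          rw [sum_comm]
          exact sum_congr rfl fun _ _ => sum_congr rfl fun _ _ =>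
            sum_congr rfl fun _ _ => sum_congr rfl fun _ _ => by ring
  have hs : (Real.sqrt ((a : ℝ) + 1) : ℂ) * (Real.sqrt ((a : ℝ) + 1) : ℂ) = (a : ℂ) + 1 := by
    rw [← Complex.ofReal_mul, Real.mul_self_sqrt (by positivity)]
    push_cast
    rfl
  rw [e1]
  simp only [stepMat_col_pow, genFun, sum_mul, mul_sum]
  rw [sum_comm]
  refine sum_congr rfl fun _ _ => sum_congr rfl fun _ _ => ?_
  rw [← hs]
  ring

theorem norm_stepMat_le (e : Bool) (a : ℕ) : ‖stepMat e a‖ ≤ Real.sqrt ((a : ℝ) + 1) := by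
  have h : (stepMat e a)ᴴ * stepMat e a =
      Matrix.diagonal fun k => ((stepWgt e a k : ℝ) : ℂ) := by
    ext i j
    have hc : ∀ k' : Fin (a + 2), (stepMat e a)ᴴ i k' = stepMat e a k' i := fun k' => by
      rw [Matrix.conjTranspose_apply, stepMat]
      split_ifs <;> simp
    simp only [Matrix.mul_apply, hc]
    rw [stepMat_col e a i (fun k' => stepMat e a k' j), Matrix.diagonal_apply]
    by_cases hij : i = j
    · subst hij
      rw [stepMat_apply_self, if_pos rfl, ← Complex.ofReal_mul, Real.mul_self_sqrt]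
      unfold stepWgt
      split_ifs <;> positivity
    · rw [stepMat, if_neg fun h => hij (Fin.ext (Nat.add_right_cancel h)), mul_zero, if_neg hij]
  have h2 : ‖stepMat e a‖ * ‖stepMat e a‖ ≤ (a : ℝ) + 1 := by
    rw [← Matrix.l2_opNorm_conjTranspose_mul_self, h, Matrix.l2_opNorm_diagonal]
    refine (pi_norm_le_iff_of_nonneg (by positivity)).2 fun k => ?_
    have hk : ((k : ℕ) : ℝ) ≤ a := by exact_mod_cast Nat.lt_succ_iff.1 k.2
    rw [Complex.norm_real, Real.norm_eq_abs, stepWgt]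
    cases e
    · simp only [Bool.false_eq_true, if_false]
      rw [abs_of_nonneg (Nat.cast_nonneg _)]
      have : ((a + 1 - k : ℕ) : ℝ) ≤ ((a + 1 : ℕ) : ℝ) := by exact_mod_cast Nat.sub_le _ _
      simpa using this
    · simp only [if_true]
      rw [abs_of_nonneg (by positivity)]
      linarith
  exact Real.le_sqrt_of_sq_le (by rw [sq]; exact h2)

theorem norm_qα_le (w : ℍ[ℝ]) : ‖qα w‖ ≤ ‖w‖ ∧ ‖qβ w‖ ≤ ‖w‖ := by
  have h := congrArg Complex.re (normSq_eq w)
  simp only [Complex.add_re, Complex.star_def, Complex.mul_conj, ← Complex.ofReal_pow,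
    Complex.ofReal_re, Complex.normSq_eq_norm_sq] at h
  constructor <;> nlinarith [norm_nonneg (qα w), norm_nonneg (qβ w), norm_nonneg w]

/-- The derivative of `rep (a + 1)` as a linear function of `rep a`. -/
def repStepFun (a : ℕ) (M : Matrix (Fin (a + 1)) (Fin (a + 1)) ℂ) (w : ℍ[ℝ]) :
    Matrix (Fin (a + 2)) (Fin (a + 2)) ℂ :=
  qα w • (stepMat true a * M * (stepMat true a)ᵀ) -
      star (qβ w) • (stepMat false a * M * (stepMat true a)ᵀ) +
    qβ w • (stepMat true a * M * (stepMat false a)ᵀ) +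
    star (qα w) • (stepMat false a * M * (stepMat false a)ᵀ)

theorem norm_repStepFun_le (a : ℕ) (M : Matrix (Fin (a + 1)) (Fin (a + 1)) ℂ) (w : ℍ[ℝ]) :
    ‖repStepFun a M w‖ ≤ 4 * ((a : ℝ) + 1) * ‖M‖ * ‖w‖ := by
  have hT : ∀ f, ‖(stepMat f a)ᵀ‖ ≤ Real.sqrt ((a : ℝ) + 1) := fun f => by
    have : (stepMat f a)ᵀ = (stepMat f a)ᴴ := by
      ext i j
      rw [Matrix.conjTranspose_apply, Matrix.transpose_apply, stepMat]
      split_ifs <;> simp
    rw [this, Matrix.l2_opNorm_conjTranspose]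
    exact norm_stepMat_le f a
  have hterm : ∀ (c : ℂ) e f, ‖c‖ ≤ ‖w‖ →
      ‖c • (stepMat e a * M * (stepMat f a)ᵀ)‖ ≤ ((a : ℝ) + 1) * ‖M‖ * ‖w‖ := fun c e f hc => by
    refine (norm_smul_le _ _).trans ?_
    have h1 : ‖stepMat e a * M * (stepMat f a)ᵀ‖ ≤
        Real.sqrt ((a : ℝ) + 1) * ‖M‖ * Real.sqrt ((a : ℝ) + 1) :=
      (Matrix.l2_opNorm_mul _ _).trans (mul_le_mul ((Matrix.l2_opNorm_mul _ _).trans
        (mul_le_mul_of_nonneg_right (norm_stepMat_le e a) (norm_nonneg _))) (hT f) (norm_nonneg _)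
        (by positivity))
    calc ‖c‖ * _ ≤ ‖w‖ * (Real.sqrt ((a : ℝ) + 1) * ‖M‖ * Real.sqrt ((a : ℝ) + 1)) :=
          mul_le_mul hc h1 (norm_nonneg _) (norm_nonneg _)
      _ = Real.sqrt ((a : ℝ) + 1) * Real.sqrt ((a : ℝ) + 1) * ‖M‖ * ‖w‖ := by ring
      _ = _ := by rw [Real.mul_self_sqrt (by positivity)]
  obtain ⟨hα, hβ⟩ := norm_qα_le w
  have := hterm (qα w) true true hα
  have := hterm (star (qβ w)) false true (by rwa [norm_star])
  have := hterm (qβ w) true false hβ
  have := hterm (star (qα w)) false false (by rwa [norm_star])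
  unfold repStepFun
  refine ((norm_add_le _ _).trans (add_le_add ((norm_add_le _ _).trans
    (add_le_add (norm_sub_le _ _) le_rfl)) le_rfl)).trans ?_
  linarith

/-- `repStepFun` as a bilinear map. -/
def repStep (a : ℕ) : Matrix (Fin (a + 1)) (Fin (a + 1)) ℂ →ₗ[ℝ]
    ℍ[ℝ] →ₗ[ℝ] Matrix (Fin (a + 2)) (Fin (a + 2)) ℂ :=
  LinearMap.mk₂ ℝ (repStepFun a)
      (fun M N w => by
        simp only [repStepFun, Matrix.mul_add, Matrix.add_mul, smul_add]; abel)
      (fun r M w => by
        simp only [repStepFun, Matrix.mul_smul, Matrix.smul_mul, smul_add, smul_sub,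
          smul_comm r])
      (fun M v w => by
        simp only [repStepFun, show qα (v + w) = qα v + qα w from qαL.map_add v w,
          show qβ (v + w) = qβ v + qβ w from qβL.map_add v w, star_add, add_smul]
        abel)
      (fun r M w => by
        simp only [repStepFun, show qα (r • w) = r • qα w from qαL.map_smul r w,
          show qβ (r • w) = r • qβ w from qβL.map_smul r w, star_smul, star_trivial, smul_assoc,
          smul_add, smul_sub])

theorem fderiv_rep_succ (a : ℕ) (q w : ℍ[ℝ]) :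
    fderiv ℝ (rep (a + 1)) q w = repStep a (rep a q) w := by
  show _ = repStepFun a (rep a q) w
  refine ext_genFun (a + 1) fun x y => ?_
  let ev : Matrix (Fin (a + 2)) (Fin (a + 2)) ℂ →L[ℝ] ℂ :=
    LinearMap.toContinuousLinearMap
      { toFun := fun M => genFun (a + 1) M x y
        map_add' := fun M N => by simp [genFun, add_mul, sum_add_distrib]
        map_smul' := fun r M => by
          simp [genFun, Complex.real_smul, mul_sum, sum_mul, mul_assoc] }
  have hc : HasDerivAt (fun s : ℝ => q + s • w) w 0 := by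
    simpa using ((hasDerivAt_id (0 : ℝ)).smul_const w).const_add q
  have h1 := ev.hasFDerivAt.comp_hasDerivAt (0 : ℝ) ((show HasFDerivAt (rep (a + 1))
    (fderiv ℝ (rep (a + 1)) q) (q + (0 : ℝ) • w) by
      rw [zero_smul, _root_.add_zero]; exact rep_hasFDerivAt (a + 1) q).comp_hasDerivAt (0 : ℝ) hc)
  set c0 := y * (qα q * x - star (qβ q)) + (qβ q * x + star (qα q)) with hc0
  set c1 := y * (qα w * x - star (qβ w)) + (qβ w * x + star (qα w)) with hc1
  have e : (ev : _ → _) ∘ (rep (a + 1) ∘ fun s : ℝ => q + s • w) =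
      fun s : ℝ => (c0 + (s : ℂ) * c1) ^ (a + 1) := by
    funext s
    show genFun (a + 1) (rep (a + 1) (q + s • w)) x y = _
    rw [genFun_rep, show qα (q + s • w) = qα q + s • qα w by
        rw [show qα (q + s • w) = qα q + qα (s • w) from qαL.map_add q (s • w),
          show qα (s • w) = s • qα w from qαL.map_smul s w],
      show qβ (q + s • w) = qβ q + s • qβ w by
        rw [show qβ (q + s • w) = qβ q + qβ (s • w) from qβL.map_add q (s • w),
          show qβ (s • w) = s • qβ w from qβL.map_smul s w]]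
    simp only [hc0, hc1, Complex.real_smul, star_add, star_mul', Complex.star_def,
      Complex.conj_ofReal]
    ring
  rw [e] at h1
  have h2 := ((((hasDerivAt_id (0 : ℝ)).ofReal_comp).mul_const c1).const_add c0).fun_pow (a + 1)
  have h3 : genFun (a + 1) (fderiv ℝ (rep (a + 1)) q w) x y =
      ((a : ℂ) + 1) * c0 ^ a * c1 := by
    refine (h1.unique h2).trans ?_
    simp
  rw [h3]
  have lin : ∀ (c : ℂ) (M : Matrix (Fin (a + 2)) (Fin (a + 2)) ℂ),
      genFun (a + 1) (c • M) x y = c * genFun (a + 1) M x y := fun c M => by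
    simp [genFun, mul_sum, sum_mul, mul_assoc]
  have ladd : ∀ M N : Matrix (Fin (a + 2)) (Fin (a + 2)) ℂ,
      genFun (a + 1) (M + N) x y = genFun (a + 1) M x y + genFun (a + 1) N x y := fun M N => by
    simp [genFun, add_mul, sum_add_distrib]
  have lsub : ∀ M N : Matrix (Fin (a + 2)) (Fin (a + 2)) ℂ,
      genFun (a + 1) (M - N) x y = genFun (a + 1) M x y - genFun (a + 1) N x y := fun M N => by
    simp [genFun, sub_mul, sum_sub_distrib]
  simp only [repStepFun, lin, ladd, lsub, genFun_step, genFun_rep, ← hc0]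
  simp only [hc1, Bool.toNat_true, Bool.toNat_false, pow_one, pow_zero]
  ring

theorem rep_zero_const : rep 0 = fun _ => (1 : Matrix (Fin 1) (Fin 1) ℂ) := by
  funext q
  rw [← rep_one 0]
  refine ext_col 0 fun i x => ?_
  rw [rep_col, rep_col]
  simp [Fin.fin_one_eq_zero i]

theorem norm_iteratedFDeriv_rep_le {R : ℝ} (hR : 0 < R) :
    ∀ (n a : ℕ) (q : ℍ[ℝ]), ‖q‖ ≤ R →
      ‖iteratedFDeriv ℝ n (rep a) q‖ ≤ (4 * (a : ℝ) / R) ^ n * R ^ a := by
  intro n
  induction n with
  | zero =>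
    intro a q hq
    rw [norm_iteratedFDeriv_zero, pow_zero, one_mul]
    exact (norm_rep_le a q).trans (pow_le_pow_left₀ (norm_nonneg _) hq a)
  | succ n ih =>
    intro a q hq
    rcases a with _ | a
    · rw [rep_zero_const, iteratedFDeriv_succ_const]
      simp
    · refine (norm_iteratedFDeriv_succ_le (rep_contDiff a) (repStep a) (C := 4 * ((a : ℝ) + 1))
        (by positivity) (norm_repStepFun_le a) (fderiv_rep_succ a) n q).trans ?_
      refine (mul_le_mul_of_nonneg_left (ih a q hq) (by positivity)).trans ?_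
      have hm : (4 * (a : ℝ) / R) ^ n ≤ (4 * ((a + 1 : ℕ) : ℝ) / R) ^ n := by
        gcongr
        simp
      calc 4 * ((a : ℝ) + 1) * ((4 * (a : ℝ) / R) ^ n * R ^ a)
          ≤ 4 * ((a : ℝ) + 1) * ((4 * ((a + 1 : ℕ) : ℝ) / R) ^ n * R ^ a) := by gcongr
        _ = (4 * ((a + 1 : ℕ) : ℝ) / R) ^ (n + 1) * R ^ (a + 1) := by
            rw [pow_succ, pow_succ]
            field_simp
            push_cast
            ring

theorem norm_entryL_le (a : ℕ) (i j : Fin (a + 1)) : ‖entryL a i j‖ ≤ 1 := by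
  refine ContinuousLinearMap.opNorm_le_bound _ zero_le_one fun M => ?_
  rw [entryL_apply, one_mul]
  refine (sq_le_sq₀ (norm_nonneg _) (norm_nonneg _)).1 (le_trans ?_ (col_norm_sq_le M j))
  exact single_le_sum (f := fun k => ‖M k j‖ ^ 2) (fun k _ => sq_nonneg _) (mem_univ i)

theorem norm_iteratedFDeriv_entry_le {R : ℝ} (hR : 0 < R) (n a : ℕ) (i j : Fin (a + 1))
    (q : ℍ[ℝ]) (hq : ‖q‖ ≤ R) :
    ‖iteratedFDeriv ℝ n (fun g => rep a g i j) q‖ ≤ (4 * (a : ℝ) / R) ^ n * R ^ a :=
  (((entryL a i j).norm_iteratedFDeriv_comp_left (n := n) (N := ⊤) (rep_contDiff a).contDiffAt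
    (by simp)).trans ((mul_le_of_le_one_left (norm_nonneg _) (norm_entryL_le a i j)))).trans
    (norm_iteratedFDeriv_rep_le hR n a q hq)

end Vale.Agent.P225.SeriesAux
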