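import Mathlib

/-!
P225, module C: uniform bounds on derivatives, and series of smooth functions on an open set with
locally summable bounds on all derivatives.
-/

noncomputable section

namespace Vale.Agent.P225.SeriesAux

open Set Filter Finset
open scoped ContDiff Topology

variable {E F G : Type*} [NormedAddCommGroup E] [NormedSpace ℝ E] [NormedAddCommGroup F]
  [NormedSpace ℝ F] [NormedAddCommGroup G] [NormedSpace ℝ G]

/-- All derivatives up to order `n` are bounded by `B` on `K`. -/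
def Bdd (n : ℕ) (K : Set E) (f : E → F) (B : ℝ) : Prop :=
  ∀ i ≤ n, ∀ v ∈ K, ‖iteratedFDeriv ℝ i f v‖ ≤ B

variable {n : ℕ} {K W : Set E}

theorem Bdd.mono {f : E → F} {B B' : ℝ} (h : Bdd n K f B) (hB : B ≤ B') : Bdd n K f B' :=
  fun i hi v hv => (h i hi v hv).trans hB

theorem Bdd.of_eq {f f' : E → F} {B : ℝ} (hW : IsOpen W) (hK : K ⊆ W) (h : Bdd n K f B)
    (e : Set.EqOn f' f W) : Bdd n K f' B := fun i hi v hv => by
  have he : f' =ᶠ[𝓝 v] f := eventually_of_mem (hW.mem_nhds (hK hv)) e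
  rw [(he.iteratedFDeriv ℝ i).eq_of_nhds]
  exact h i hi v hv

theorem bdd_const (c : F) : Bdd n K (fun _ : E => c) ‖c‖ := fun i _ v _ => by
  rcases i with _ | i
  · rw [norm_iteratedFDeriv_zero]
  · simp [iteratedFDeriv_succ_const]

theorem Bdd.mul {f g : E → ℂ} {Bf Bg : ℝ} (hW : IsOpen W) (hK : K ⊆ W)
    (hf : ContDiffOn ℝ ∞ f W) (hg : ContDiffOn ℝ ∞ g W) (h1 : Bdd n K f Bf)
    (h2 : Bdd n K g Bg) : Bdd n K (fun v => f v * g v) (2 ^ n * Bf * Bg) := fun i hi v hv => by
  have h := norm_iteratedFDerivWithin_mul_le hf hg hW.uniqueDiffOn (hK hv) (n := i)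
    (by exact_mod_cast le_top)
  simp only [iteratedFDerivWithin_of_isOpen _ hW (hK hv)] at h
  have hB : 0 ≤ Bf * Bg := mul_nonneg ((norm_nonneg _).trans (h1 0 (Nat.zero_le n) v hv))
    ((norm_nonneg _).trans (h2 0 (Nat.zero_le n) v hv))
  refine h.trans ?_
  calc ∑ j ∈ range (i + 1), (i.choose j : ℝ) * ‖iteratedFDeriv ℝ j f v‖ *
        ‖iteratedFDeriv ℝ (i - j) g v‖
      ≤ ∑ j ∈ range (i + 1), (i.choose j : ℝ) * (Bf * Bg) := by
        refine sum_le_sum fun j hj => ?_
        rw [mul_assoc]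
        refine mul_le_mul_of_nonneg_left ?_ (Nat.cast_nonneg _)
        have hj' : j ≤ i := Nat.lt_succ_iff.1 (Finset.mem_range.1 hj)
        exact mul_le_mul (h1 j (hj'.trans hi) v hv) (h2 (i - j) ((Nat.sub_le i j).trans hi) v hv)
          (norm_nonneg _) ((norm_nonneg _).trans (h1 0 (Nat.zero_le n) v hv))
    _ = (2 : ℝ) ^ i * (Bf * Bg) := by
        rw [← Finset.sum_mul]
        congr 1
        exact_mod_cast Nat.sum_range_choose i
    _ ≤ 2 ^ n * Bf * Bg := by
        rw [mul_assoc ((2 : ℝ) ^ n)]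
        exact mul_le_mul_of_nonneg_right (pow_le_pow_right₀ one_le_two hi) hB

theorem Bdd.const_mul {f : E → ℂ} {B : ℝ} (hW : IsOpen W) (hK : K ⊆ W)
    (hf : ContDiffOn ℝ ∞ f W) (c : ℂ) (h : Bdd n K f B) :
    Bdd n K (fun v => c * f v) (‖c‖ * B) := fun i hi v hv => by
  have hfa : ContDiffAt ℝ i f v :=
    (hf.contDiffAt (hW.mem_nhds (hK hv))).of_le (by exact_mod_cast le_top)
  have e : iteratedFDeriv ℝ i (fun w => c • f w) v = c • iteratedFDeriv ℝ i f v :=
    iteratedFDeriv_const_smul_apply' (a := c) hfa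
  simp only [smul_eq_mul] at e
  rw [e]
  exact (norm_smul_le c _).trans (mul_le_mul_of_nonneg_left (h i hi v hv) (norm_nonneg c))

theorem Bdd.sum {ι : Type*} {s : Finset ι} {f : ι → E → F} {B : ι → ℝ} (hW : IsOpen W)
    (hK : K ⊆ W) (hf : ∀ j ∈ s, ContDiffOn ℝ ∞ (f j) W) (h : ∀ j ∈ s, Bdd n K (f j) (B j)) :
    Bdd n K (fun v => ∑ j ∈ s, f j v) (∑ j ∈ s, B j) := fun i hi v hv => by
  rw [← iteratedFDerivWithin_of_isOpen i hW (hK hv), ← Finset.sum_fn,
    iteratedFDerivWithin_sum_apply hW.uniqueDiffOn (hK hv)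
      fun j hj => ((hf j hj) v (hK hv)).of_le (by exact_mod_cast le_top)]
  refine (norm_sum_le _ _).trans (sum_le_sum fun j hj => ?_)
  rw [iteratedFDerivWithin_of_isOpen i hW (hK hv)]
  exact h j hj i hi v hv

theorem Bdd.comp {g : F → G} {φ : E → F} {t : Set F} {C D : ℝ} (hW : IsOpen W) (hK : K ⊆ W)
    (ht : IsOpen t) (hg : ContDiffOn ℝ ∞ g t) (hφ : ContDiffOn ℝ ∞ φ W) (hst : MapsTo φ W t)
    (hC : Bdd n (φ '' K) g C) (hD : Bdd n K φ D) (h1 : 1 ≤ D) :
    Bdd n K (fun v => g (φ v)) (n.factorial * C * D ^ n) := fun i hi v hv => by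
  have h := norm_iteratedFDerivWithin_comp_le (n := i) (C := C) (D := D) hg hφ
    (by exact_mod_cast le_top) ht.uniqueDiffOn hW.uniqueDiffOn hst (hK hv)
    (fun j hj => by
      rw [iteratedFDerivWithin_of_isOpen j ht (hst (hK hv))]
      exact hC j (hj.trans hi) _ (mem_image_of_mem φ hv))
    (fun j hj1 hj => by
      rw [iteratedFDerivWithin_of_isOpen j hW (hK hv)]
      exact (hD j (hj.trans hi) v hv).trans (le_self_pow₀ h1 (by omega)))
  rw [iteratedFDerivWithin_of_isOpen i hW (hK hv)] at h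
  refine h.trans ?_
  have hC0 : 0 ≤ C := (norm_nonneg _).trans (hC 0 (Nat.zero_le n) _ (mem_image_of_mem φ hv))
  gcongr

/-- A fixed smooth function is bounded with all derivatives on compact sets. -/
theorem exists_bdd (n : ℕ) {f : E → F} (hW : IsOpen W) (hK : K ⊆ W) (hc : IsCompact K)
    (hf : ContDiffOn ℝ ∞ f W) : ∃ B, 1 ≤ B ∧ Bdd n K f B := by
  have h : ∀ i : ℕ, ∃ B, ∀ v ∈ K, ‖iteratedFDeriv ℝ i f v‖ ≤ B := fun i =>
    hc.exists_bound_of_continuousOn
      (((hf.continuousOn_iteratedFDerivWithin (m := i) (by exact_mod_cast le_top)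
        hW.uniqueDiffOn).congr fun v hv => (iteratedFDerivWithin_of_isOpen i hW hv).symm).mono hK)
  choose B hB using h
  refine ⟨1 + ∑ i ∈ range (n + 1), |B i|, by
    have := Finset.sum_nonneg (s := range (n + 1)) fun i _ => abs_nonneg (B i); linarith,
    fun i hi v hv => ?_⟩
  have h1 := Finset.single_le_sum (f := fun i => |B i|) (fun i _ => abs_nonneg (B i))
    (Finset.mem_range.2 (Nat.lt_succ_of_le hi))
  have h2 := hB i v hv
  have h3 := le_abs_self (B i)
  linarith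

/-- Locally summable bounds on all derivatives of a family. -/
structure SumFam {α : Type*} (W : Set E) (f : α → E → F) : Prop where
  isOpen : IsOpen W
  smooth : ∀ a, ContDiffOn ℝ ∞ (f a) W
  bound : ∀ v ∈ W, ∃ K ∈ 𝓝 v, ∀ n, ∃ u : α → ℝ, Summable u ∧ ∀ a, Bdd n K (f a) (u a)

variable {α : Type*}

theorem SumFam.fderiv {f : α → E → F} (h : SumFam W f) :
    SumFam W fun a => fderiv ℝ (f a) := by
  refine ⟨h.isOpen, fun a => (h.smooth a).fderiv_of_isOpen h.isOpen le_rfl, fun v hv => ?_⟩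
  obtain ⟨K, hK, hb⟩ := h.bound v hv
  refine ⟨K, hK, fun n => ?_⟩
  obtain ⟨u, hu, hu'⟩ := hb (n + 1)
  exact ⟨u, hu, fun a i hi w hw =>
    norm_iteratedFDeriv_fderiv.le.trans (hu' a (i + 1) (by omega) w hw)⟩

theorem SumFam.comp_left [CompleteSpace G] {f : α → E → F} (h : SumFam W f) (L : F →L[ℝ] G) :
    SumFam W fun a v => L (f a v) := by
  refine ⟨h.isOpen, fun a => L.contDiff.comp_contDiffOn (h.smooth a), fun v hv => ?_⟩
  obtain ⟨K, hK, hb⟩ := h.bound v hv
  refine ⟨K ∩ W, inter_mem hK (h.isOpen.mem_nhds hv), fun n => ?_⟩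
  obtain ⟨u, hu, hu'⟩ := hb n
  refine ⟨fun a => ‖L‖ * u a, hu.mul_left _, fun a i hi w hw => ?_⟩
  exact ((L.norm_iteratedFDeriv_comp_left (n := i) (N := ∞)
    ((h.smooth a).contDiffAt (h.isOpen.mem_nhds hw.2)) (by exact_mod_cast le_top)).trans
      (mul_le_mul_of_nonneg_left (hu' a i hi w hw.1) (norm_nonneg L)))

theorem SumFam.summable [CompleteSpace F] {f : α → E → F} (h : SumFam W f) {v : E} (hv : v ∈ W) :
    Summable fun a => f a v := by
  obtain ⟨K, hK, hb⟩ := h.bound v hv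
  obtain ⟨u, hu, hu'⟩ := hb 0
  exact Summable.of_norm_bounded hu fun a =>
    norm_iteratedFDeriv_zero.symm.le.trans (hu' a 0 le_rfl v (mem_of_mem_nhds hK))

theorem SumFam.hasFDerivAt [CompleteSpace F] {f : α → E → F} (h : SumFam W f) {v : E}
    (hv : v ∈ W) :
    HasFDerivAt (fun w => ∑' a, f a w) (∑' a, _root_.fderiv ℝ (f a) v) v := by
  obtain ⟨K, hK, hb⟩ := h.bound v hv
  obtain ⟨ε, hε, hball⟩ := Metric.mem_nhds_iff.1 (inter_mem hK (h.isOpen.mem_nhds hv))
  obtain ⟨u, hu, hu'⟩ := hb 1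
  refine hasFDerivAt_tsum_of_isPreconnected (f := f) (f' := fun a => _root_.fderiv ℝ (f a)) hu
    Metric.isOpen_ball (convex_ball v ε).isPreconnected (fun a w hw => ?_) (fun a w hw => ?_)
    (Metric.mem_ball_self hε) (h.summable hv) (Metric.mem_ball_self hε)
  · exact (((h.smooth a).contDiffAt (h.isOpen.mem_nhds (hball hw).2)).differentiableAt
      (by simp)).hasFDerivAt
  · rw [← norm_iteratedFDeriv_zero (𝕜 := ℝ) (f := _root_.fderiv ℝ (f a)),
      norm_iteratedFDeriv_fderiv]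
    exact hu' a 1 le_rfl w (hball hw).1

theorem SumFam.fderiv_tsum [CompleteSpace F] {f : α → E → F} (h : SumFam W f) {v : E}
    (hv : v ∈ W) :
    _root_.fderiv ℝ (fun w => ∑' a, f a w) v = ∑' a, _root_.fderiv ℝ (f a) v :=
  (h.hasFDerivAt hv).fderiv

end Vale.Agent.P225.SeriesAux

namespace Vale.Agent.P225.SeriesAux

open Set Filter
open scoped ContDiff Topology

universe u

/-- A series with locally summable bounds on all derivatives is smooth. -/
theorem SumFam.contDiffOn {E : Type u} [NormedAddCommGroup E] [NormedSpace ℝ E] {α : Type*}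
    {W : Set E} {F : Type u} [NormedAddCommGroup F] [NormedSpace ℝ F] [CompleteSpace F]
    {f : α → E → F} (h : SumFam W f) : ContDiffOn ℝ ∞ (fun w => ∑' a, f a w) W := by
  refine contDiffOn_infty.2 fun n => ?_
  induction n generalizing F with
  | zero =>
    exact contDiffOn_zero.2 fun v hv =>
      (h.hasFDerivAt hv).continuousAt.continuousWithinAt
  | succ n ih =>
    rw [show ((n + 1 : ℕ) : WithTop ℕ∞) = (n : WithTop ℕ∞) + 1 from by norm_cast,
      contDiffOn_succ_iff_fderiv_of_isOpen h.isOpen]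
    refine ⟨fun v hv => (h.hasFDerivAt hv).differentiableAt.differentiableWithinAt,
      fun hw => absurd hw (by simp), ?_⟩
    exact (ih h.fderiv).congr fun v hv => h.fderiv_tsum hv

end Vale.Agent.P225.SeriesAux
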