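import Vale.Agent.P225.Series.PointFun
import Vale.Agent.P225.Series.RepDeriv
import Vale.Agent.P225.Series.Smooth
import Vale.Agent.P225.Series.CoreBound

/-!
P225, module C: locally summable bounds for the two forms of the series (near the core, and away
from it).
-/

noncomputable section

namespace Vale.Agent.P225.SeriesAux

open Matrix SU2 Set Filter Chart PointFun
open scoped ContDiff Quaternion Topology Matrix.Norms.L2Operator

attribute [local irreducible] rep SU2.inv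

/-- The polynomial weight of a point. -/
def wt (x : Pnt) : ℝ := ((∑ k, lab x k : ℕ) : ℝ) + 1

theorem one_le_wt (x : Pnt) : 1 ≤ wt x := by
  unfold wt
  have : (0 : ℝ) ≤ ((∑ k, lab x k : ℕ) : ℝ) := Nat.cast_nonneg _
  linarith

theorem lab_add_one_le_wt (x : Pnt) (k : Fin 3) : (lab x k : ℝ) + 1 ≤ wt x := by
  have h : lab x k ≤ ∑ j, lab x j :=
    Finset.single_le_sum (f := fun j => lab x j) (fun j _ => Nat.zero_le _) (Finset.mem_univ k)
  unfold wt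
  have : (lab x k : ℝ) ≤ ((∑ j, lab x j : ℕ) : ℝ) := by exact_mod_cast h
  linarith

theorem prod_lab_le (x : Pnt) : ∏ k, ((lab x k : ℝ) + 1) ≤ wt x ^ 3 :=
  (Finset.prod_le_prod (fun k _ => by positivity) fun k _ => lab_add_one_le_wt x k).trans_eq
    (by simp)

/-- Polynomial decay of degree `24` is summable over points. -/
theorem summable_wt : Summable fun x : Pnt => (wt x ^ 24)⁻¹ := by
  have h1 : Summable fun n : ℕ => (((n : ℝ) + 1) ^ 4)⁻¹ := by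
    simpa using (summable_nat_add_iff (f := fun n : ℕ => ((n : ℝ) ^ 4)⁻¹) 1).2
      (Real.summable_nat_pow_inv.2 (by norm_num))
  have h0 : ∀ n : ℕ, 0 ≤ (((n : ℝ) + 1) ^ 4)⁻¹ := fun n => by positivity
  have h2 := h1.mul_of_nonneg h1 h0 h0
  have h6 := (h2.mul_of_nonneg h2 (fun q => by positivity) (fun q => by positivity)).mul_of_nonneg
    h2 (fun q => by positivity) (fun q => by positivity)
  let code : Pnt → ((ℕ × ℕ) × ℕ × ℕ) × ℕ × ℕ := fun x =>
    (((lab x 0, idx x 0), (lab x 1, idx x 1)), (lab x 2, idx x 2))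
  have hcode : Function.Injective code := fun x y h => by
    simp only [code, Prod.mk.injEq] at h
    obtain ⟨⟨⟨a, b⟩, c, d⟩, e, f⟩ := h
    exact Pnt.ext' (fun k => by fin_cases k <;> assumption) (fun k => by fin_cases k <;> assumption)
  refine (h6.comp_injective hcode).of_nonneg_of_le
    (fun x => by have := one_le_wt x; positivity) fun x => ?_
  have hb : ∀ k, (lab x k : ℝ) + 1 ≤ wt x ∧ (idx x k : ℝ) + 1 ≤ wt x :=
    fun k => by
      have h := lab_add_one_le_wt x k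
      have h' : (idx x k : ℝ) ≤ (lab x k : ℝ) := by exact_mod_cast Nat.lt_succ_iff.1 (x.2 k).2
      exact ⟨h, by linarith⟩
  simp only [code, Function.comp_apply, ← mul_inv]
  have := one_le_wt x
  gcongr
  calc _ ≤ ((wt x ^ 4 * wt x ^ 4) * (wt x ^ 4 * wt x ^ 4)) * (wt x ^ 4 * wt x ^ 4) := by
        gcongr <;> first | exact (hb _).1 | exact (hb _).2
    _ = _ := by ring

/-- A family with polynomially decaying bounds has locally summable bounds. -/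
theorem sumFam_of_poly {E F : Type*} [NormedAddCommGroup E] [NormedSpace ℝ E]
    [NormedAddCommGroup F] [NormedSpace ℝ F] {W : Set E} {f : Pnt → E → F} (hW : IsOpen W)
    (hf : ∀ x, ContDiffOn ℝ ∞ (f x) W)
    (h : ∀ v ∈ W, ∃ K ∈ 𝓝 v, ∀ n, ∃ C : ℝ, ∀ x, Bdd n K (f x) (C * (wt x ^ 24)⁻¹)) :
    SumFam W f := by
  refine ⟨hW, hf, fun v hv => ?_⟩
  obtain ⟨K, hK, hb⟩ := h v hv
  refine ⟨K, hK, fun n => ?_⟩
  obtain ⟨C, hC⟩ := hb n
  exact ⟨_, summable_wt.mul_left C, hC⟩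

theorem contDiff_entry (a : ℕ) (i j : Fin (a + 1)) :
    ContDiff ℝ ∞ fun g : ℍ[ℝ] => rep a g i j :=
  (entryL a i j).contDiff.comp (rep_contDiff a)

/-- An entry composed with a fixed map, on a set where the map has norm at most `R`. -/
theorem entry_comp_bdd (n : ℕ) {W K : Set Pt} (hW : IsOpen W) (hK : K ⊆ W) (hc : IsCompact K)
    {Φ : Pt → ℍ[ℝ]} {R : ℝ} (hΦ : ContDiffOn ℝ ∞ Φ W) (hR : 0 < R) (h : ∀ v ∈ K, ‖Φ v‖ ≤ R) :
    ∃ C, 0 ≤ C ∧ ∀ (a : ℕ) (i j : Fin (a + 1)) (w : ℝ), 1 ≤ w → (a : ℝ) ≤ w →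
      Bdd n K (fun v => rep a (Φ v) i j) (C * w ^ n * R ^ a) := by
  obtain ⟨D, hD1, hD⟩ := exists_bdd n hW hK hc hΦ
  set M := 1 + 4 / R with hM
  have h4 : 0 < 4 / R := by positivity
  refine ⟨n.factorial * M ^ n * D ^ n, by positivity, fun a i j w hw ha => ?_⟩
  have hC : Bdd n (Φ '' K) (fun g : ℍ[ℝ] => rep a g i j) ((M * w) ^ n * R ^ a) := by
    rintro l hl _ ⟨v, hv, rfl⟩
    refine (norm_iteratedFDeriv_entry_le hR l a i j (Φ v) (h v hv)).trans
      (mul_le_mul_of_nonneg_right ?_ (by positivity))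
    have hMw : 1 ≤ M * w := one_le_mul_of_one_le_of_one_le (by linarith) hw
    refine (pow_le_pow_left₀ (by positivity) ?_ l).trans (pow_le_pow_right₀ hMw hl)
    rw [mul_div_right_comm]
    exact mul_le_mul (by linarith) ha (Nat.cast_nonneg a) (by linarith)
  refine (Bdd.comp hW hK isOpen_univ (contDiff_entry a i j).contDiffOn hΦ
    (fun _ _ => trivial) hC hD hD1).mono (le_of_eq ?_)
  rw [mul_pow]
  ring

theorem norm_inv_le_one (x : Pnt) (m : MIdx (lab x)) : ‖SU2.inv (lab x) m‖ ≤ 1 := by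
  have h := Finset.single_le_sum (f := fun m => ‖SU2.inv (lab x) m‖ ^ 2) (fun _ _ => sq_nonneg _)
    (Finset.mem_univ m)
  rw [inv_norm x.1.2] at h
  nlinarith [norm_nonneg (SU2.inv (lab x) m)]

/-- A point function at a moving triple. -/
theorem pfun_triple_bdd (n : ℕ) {W K : Set Pt} (hW : IsOpen W) (hK : K ⊆ W) (hc : IsCompact K)
    {Φ₁ Φ₂ : Pt → ℍ[ℝ]} {R : ℝ} (hΦ₁ : ContDiffOn ℝ ∞ Φ₁ W) (hΦ₂ : ContDiffOn ℝ ∞ Φ₂ W)
    (hR : 0 < R) (h₁ : ∀ v ∈ K, ‖Φ₁ v‖ ≤ R) (h₂ : ∀ v ∈ K, ‖Φ₂ v‖ ≤ 1) :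
    ∃ C, 0 ≤ C ∧ ∀ x : Pnt,
      Bdd n K (fun v => pfun x ![1, Φ₁ v, Φ₂ v]) (C * wt x ^ (2 * n + 6) * R ^ lab x 1) := by
  obtain ⟨C₁, hC₁, hb₁⟩ := entry_comp_bdd n hW hK hc hΦ₁ hR h₁
  obtain ⟨C₂, hC₂, hb₂⟩ := entry_comp_bdd n hW hK hc hΦ₂ one_pos h₂
  refine ⟨2 ^ n * C₁ * C₂, by positivity, fun x => ?_⟩
  have hw := one_le_wt x
  have hP : (0 : ℝ) ≤ ∏ k, ((lab x k : ℝ) + 1) := Finset.prod_nonneg fun k _ => by positivity
  have hle : ∀ k, (lab x k : ℝ) ≤ wt x := fun k => by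
    have := lab_add_one_le_wt x k; linarith
  have hs1 : ∀ m : MIdx (lab x), ContDiffOn ℝ ∞
      (fun v => rep (lab x 1) (Φ₁ v) (m 1) (x.2 1)) W := fun m =>
    (contDiff_entry _ _ _).comp_contDiffOn hΦ₁
  have hs2 : ∀ m : MIdx (lab x), ContDiffOn ℝ ∞
      (fun v => rep (lab x 2) (Φ₂ v) (m 2) (x.2 2)) W := fun m =>
    (contDiff_entry _ _ _).comp_contDiffOn hΦ₂
  set co : MIdx (lab x) → ℂ := fun m => (Real.sqrt (∏ k, ((lab x k : ℝ) + 1)) : ℂ) *
    SU2.inv (lab x) m * rep (lab x 0) 1 (m 0) (x.2 0) with hco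
  have hcn : ∀ m, ‖co m‖ ≤ wt x ^ 3 := fun m => by
    have h1 : ‖rep (lab x 0) 1 (m 0) (x.2 0)‖ ≤ 1 := by
      simpa using norm_iteratedFDeriv_entry_le one_pos 0 (lab x 0) (m 0) (x.2 0) 1 (by simp)
    rw [hco]
    simp only [norm_mul]
    rw [Complex.norm_real, Real.norm_of_nonneg (Real.sqrt_nonneg _)]
    refine (mul_le_of_le_one_right (by positivity) h1).trans
      ((mul_le_of_le_one_right (Real.sqrt_nonneg _) (norm_inv_le_one x m)).trans ?_)
    refine le_trans ?_ (prod_lab_le x)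
    rw [Real.sqrt_le_left hP]
    exact le_self_pow₀ (Finset.one_le_prod fun k => by simp) two_ne_zero
  have e : (fun v => pfun x ![1, Φ₁ v, Φ₂ v]) = fun v => ∑ m : MIdx (lab x),
      co m * (rep (lab x 1) (Φ₁ v) (m 1) (x.2 1) * rep (lab x 2) (Φ₂ v) (m 2) (x.2 2)) := by
    funext v
    rw [pfun, Finset.mul_sum]
    refine Finset.sum_congr rfl fun m _ => ?_
    simp only [hco, Fin.prod_univ_three, Matrix.cons_val_zero, Matrix.cons_val_one,
      Matrix.cons_val]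
    ring
  rw [e]
  refine (Bdd.sum hW hK (fun m _ => contDiffOn_const.mul ((hs1 m).mul (hs2 m))) fun m _ =>
    Bdd.const_mul hW hK ((hs1 m).mul (hs2 m)) (co m) (Bdd.mul hW hK (hs1 m) (hs2 m)
      (hb₁ (lab x 1) (m 1) (x.2 1) (wt x) hw (hle 1))
      (hb₂ (lab x 2) (m 2) (x.2 2) (wt x) hw (hle 2)))).mono ?_
  rw [← Finset.sum_mul]
  have hsum : ∑ m : MIdx (lab x), ‖co m‖ ≤ wt x ^ 3 * wt x ^ 3 := by
    refine (Finset.sum_le_card_nsmul _ _ _ fun m _ => hcn m).trans ?_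
    rw [nsmul_eq_mul]
    refine mul_le_mul_of_nonneg_right (le_trans (le_of_eq ?_) (prod_lab_le x)) (by positivity)
    simp
  refine (mul_le_mul_of_nonneg_right hsum (by positivity)).trans (le_of_eq ?_)
  rw [one_pow, pow_add, two_mul, pow_add]
  ring

theorem contDiff_qnsq : ContDiff ℝ ∞ qnsq :=
  ContDiff.sum fun i _ => (contDiff_apply ℝ ℝ i).mul (contDiff_apply ℝ ℝ i)

theorem contDiffOn_slots {W : Set Pt} (hW : W ⊆ chartU) :
    ContDiffOn ℝ ∞ (fun v => sH (xC v)) W ∧ ContDiffOn ℝ ∞ (fun v => sH (thC v)) W :=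
  ⟨sH.contDiff.comp_contDiffOn fun v hv => (contDiffAt_xC (hW hv)).contDiffWithinAt,
    sH.contDiff.comp_contDiffOn fun v hv => (contDiffAt_thC (hW hv)).contDiffWithinAt⟩

theorem norm_sH (q : Q4) : ‖sH q‖ = qlen q := by
  rw [sH_apply, norm_star, norm_qH]

theorem contDiffOn_slot_dir : ContDiffOn ℝ ∞ (fun v => sH (qdir (xC v))) chartV :=
  sH.contDiff.comp_contDiffOn fun v hv =>
    ((contDiffAt_qdir hv.2).comp v (contDiffAt_xC hv.1)).contDiffWithinAt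

theorem norm_slot_dir {v : Pt} (hv : v ∈ chartV) : ‖sH (qdir (xC v))‖ = 1 := by
  rw [qdir, map_smul, norm_smul, norm_sH, Real.norm_eq_abs,
    abs_of_pos (inv_pos.2 (qlen_pos hv.2)), inv_mul_cancel₀ (qlen_pos hv.2).ne']

theorem rad_eq_norm (v : Pt) : ‖sH (xC v)‖ = rad v := norm_sH _

theorem norm_slot_th {v : Pt} (hv : v ∈ chartU) : ‖sH (thC v)‖ = 1 := by
  rw [norm_sH, qlen_thC hv]

/-- A compact neighbourhood inside an open set. -/
theorem exists_compact_nhds {W : Set Pt} (hW : IsOpen W) {v : Pt} (hv : v ∈ W) :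
    ∃ K ∈ 𝓝 v, K ⊆ W ∧ IsCompact K := by
  obtain ⟨ε, hε, h⟩ := Metric.nhds_basis_closedBall.mem_iff.1 (hW.mem_nhds hv)
  exact ⟨_, Metric.closedBall_mem_nhds v hε, h, isCompact_closedBall v ε⟩

/-- The series near the core. -/
theorem core_sumFam {W : Set Pt} (hW : IsOpen W) (hWU : W ⊆ chartU) {r : ℝ} (hr : 0 < r)
    (hWr : ∀ v ∈ W, rad v ≤ r) {ξ : Pnt → ℂ} {e : Pnt → ℝ} {B : ℝ} (hB : 1 ≤ B)
    (he0 : ∀ x, 0 ≤ e x) (he : ∀ x, e x ≤ B * wt x ^ 2)
    (hdec : ∀ p : ℕ, ∃ C : ℝ, ∀ x,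
      wt x ^ p * ‖ξ x‖ * r ^ lab x 1 * cFn (lab x 1) (e x * r ^ 2) ≤ C) :
    SumFam W fun x v => ξ x * ((cFn (lab x 1) (e x * qnsq (xC v)) : ℝ) : ℂ) *
      pfun x ![1, sH (xC v), sH (thC v)] := by
  have hx : ContDiffOn ℝ ∞ xC W := fun v hv => (contDiffAt_xC (hWU hv)).contDiffWithinAt
  have hq : ContDiffOn ℝ ∞ (fun v => qnsq (xC v)) W := contDiff_qnsq.comp_contDiffOn hx
  obtain ⟨hs1, hs2⟩ := contDiffOn_slots hWU
  have hg : ∀ x : Pnt, ContDiff ℝ ∞ fun t => ((cFn (lab x 1) (e x * t) : ℝ) : ℂ) := fun x =>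
    Complex.ofRealCLM.contDiff.comp ((contDiff_cFn _).comp (contDiff_const.mul contDiff_id))
  have hA : ∀ x : Pnt, ContDiffOn ℝ ∞
      (fun v => ((cFn (lab x 1) (e x * qnsq (xC v)) : ℝ) : ℂ)) W := fun x =>
    (hg x).comp_contDiffOn hq
  have hB' : ∀ x : Pnt, ContDiffOn ℝ ∞ (fun v => pfun x ![1, sH (xC v), sH (thC v)]) W := fun x =>
    (pfun_contDiff x).comp_contDiffOn (contDiffOn_pi.2 fun k => by
      fin_cases k
      exacts [contDiffOn_const, hs1, hs2])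
  refine sumFam_of_poly hW (fun x => (contDiffOn_const.mul (hA x)).mul (hB' x)) fun v hv => ?_
  obtain ⟨K, hKn, hK, hKc⟩ := exists_compact_nhds hW hv
  refine ⟨K, hKn, fun n => ?_⟩
  obtain ⟨C₁, hC₁, hb₁⟩ := pfun_triple_bdd n hW hK hKc hs1 hs2 hr
    (fun w hw => (rad_eq_norm w).trans_le (hWr w (hK hw)))
    (fun w hw => (norm_slot_th (hWU (hK hw))).le)
  obtain ⟨D, hD1, hD⟩ := exists_bdd n hW hK hKc hq
  obtain ⟨C₂, hC₂⟩ := hdec (2 * n + (2 * n + 6) + 24)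
  refine ⟨2 ^ n * (n.factorial * B ^ n * D ^ n) * C₁ * C₂, fun x => ?_⟩
  have hw := one_le_wt x
  have hc : Bdd n ((fun w => qnsq (xC w)) '' K)
      (fun t => ((cFn (lab x 1) (e x * t) : ℝ) : ℂ))
      (B ^ n * wt x ^ (2 * n) * cFn (lab x 1) (e x * r ^ 2)) := by
    rintro i hi _ ⟨w, hwK, rfl⟩
    have hS : qnsq (xC w) ≤ r ^ 2 := by
      have := pow_le_pow_left₀ (Real.sqrt_nonneg _) (hWr w (hK hwK)) 2
      rwa [Real.sq_sqrt (qnsq_nonneg _)] at this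
    refine (cFn_scaled_bound _ (he0 x) (qnsq_nonneg _) hS i).trans
      (mul_le_mul_of_nonneg_right ?_ (cFn_nonneg _ (mul_nonneg (he0 x) (sq_nonneg r))))
    rw [pow_mul, ← mul_pow]
    refine (pow_le_pow_left₀ (he0 x) (he x) i).trans (pow_le_pow_right₀ ?_ hi)
    exact one_le_mul_of_one_le_of_one_le hB (one_le_pow₀ hw)
  have h1 := Bdd.comp hW hK isOpen_univ (hg x).contDiffOn hq (fun _ _ => trivial) hc hD hD1
  refine (Bdd.mul hW hK (contDiffOn_const.mul (hA x)) (hB' x)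
    (Bdd.const_mul hW hK (hA x) (ξ x) h1) (hb₁ x)).mono ?_
  have h2 : ∀ {X : ℝ}, 0 ≤ X →
      X * (wt x ^ (2 * n + (2 * n + 6)) * ‖ξ x‖ * r ^ lab x 1 * cFn (lab x 1) (e x * r ^ 2)) ≤
        X * (C₂ * (wt x ^ 24)⁻¹) := fun {X} hX => by
    refine mul_le_mul_of_nonneg_left ?_ hX
    rw [le_mul_inv_iff₀ (by positivity)]
    refine le_trans (le_of_eq ?_) (hC₂ x)
    rw [pow_add _ _ 24]
    ring
  refine le_trans (le_trans (le_of_eq ?_)
    (h2 (X := 2 ^ n * (n.factorial * B ^ n * D ^ n) * C₁) (by positivity))) (le_of_eq (by ring))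
  rw [pow_add _ (2 * n)]
  ring

/-- The series away from the core. -/
theorem link_sumFam {c : Pnt → ℝ → ℂ} (hs : ∀ x, ContDiffOn ℝ ∞ (c x) (Ioi 0))
    (hdec : ∀ a b : ℝ, 0 < a → a ≤ b → ∀ m p : ℕ, ∃ C : ℝ, ∀ x, ∀ r ∈ Icc a b,
      wt x ^ p * ‖iteratedDerivWithin m (c x) (Ioi 0) r‖ ≤ C) :
    SumFam chartV fun x v => c x (rad v) * pointFun x v := by
  have hr : ContDiffOn ℝ ∞ rad chartV := fun v hv => (contDiffAt_rad hv).contDiffWithinAt
  have hpos : MapsTo rad chartV (Ioi 0) := fun v hv => qlen_pos hv.2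
  have hA : ∀ x, ContDiffOn ℝ ∞ (fun v => c x (rad v)) chartV := fun x => (hs x).comp hr hpos
  have hs2 := (contDiffOn_slots (W := chartV) fun v hv => hv.1).2
  have hB : ∀ x : Pnt,
      ContDiffOn ℝ ∞ (fun v => pfun x ![1, sH (qdir (xC v)), sH (thC v)]) chartV := fun x =>
    (pfun_contDiff x).comp_contDiffOn (contDiffOn_pi.2 fun k => by
      fin_cases k
      exacts [contDiffOn_const, contDiffOn_slot_dir, hs2])
  have heq : (fun x v => c x (rad v) * pointFun x v) =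
      fun (x : Pnt) (v : Pt) => c x (rad v) * pfun x ![1, sH (qdir (xC v)), sH (thC v)] := rfl
  rw [heq]
  refine sumFam_of_poly isOpen_chartV (fun x => (hA x).mul (hB x)) fun v hv => ?_
  have hv0 : 0 < rad v := hpos hv
  have hop : IsOpen (chartV ∩ rad ⁻¹' Ioo (rad v / 2) (2 * rad v)) :=
    hr.continuousOn.isOpen_inter_preimage isOpen_chartV isOpen_Ioo
  have hvI : rad v ∈ Ioo (rad v / 2) (2 * rad v) := ⟨by linarith, by linarith⟩
  obtain ⟨K, hKn, hK', hKc⟩ := exists_compact_nhds hop ⟨hv, hvI⟩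
  have hK : K ⊆ chartV := fun w hw => (hK' hw).1
  refine ⟨K, hKn, fun n => ?_⟩
  obtain ⟨C₁, hC₁, hb₁⟩ := pfun_triple_bdd n isOpen_chartV hK hKc contDiffOn_slot_dir hs2 one_pos
    (fun w hw => (norm_slot_dir (hK hw)).le) (fun w hw => (norm_slot_th (hK hw).1).le)
  obtain ⟨D, hD1, hD⟩ := exists_bdd n isOpen_chartV hK hKc hr
  have hd := fun m => hdec (rad v / 2) (2 * rad v) (by linarith) (by linarith) m (2 * n + 6 + 24)
  choose C₂ hC₂ using hd
  set C₃ := ∑ m ∈ Finset.range (n + 1), |C₂ m|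
  refine ⟨2 ^ n * (n.factorial * D ^ n) * C₁ * C₃, fun x => ?_⟩
  have hw := one_le_wt x
  have hc : Bdd n (rad '' K) (c x) (C₃ * (wt x ^ (2 * n + 6 + 24))⁻¹) := by
    rintro i hi _ ⟨w, hwK, rfl⟩
    rw [← iteratedFDerivWithin_of_isOpen i isOpen_Ioi (hpos (hK hwK)),
      norm_iteratedFDerivWithin_eq_norm_iteratedDerivWithin, le_mul_inv_iff₀ (by positivity),
      mul_comm]
    refine (hC₂ i x (rad w) (Ioo_subset_Icc_self (hK' hwK).2)).trans
      ((le_abs_self _).trans ?_)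
    exact Finset.single_le_sum (f := fun m => |C₂ m|) (fun m _ => abs_nonneg _)
      (Finset.mem_range.2 (Nat.lt_succ_of_le hi))
  have h1 := Bdd.comp isOpen_chartV hK isOpen_Ioi (hs x) hr hpos hc hD hD1
  refine (Bdd.mul isOpen_chartV hK (hA x) (hB x) h1 (hb₁ x)).mono (le_of_eq ?_)
  rw [one_pow, pow_add _ (2 * n + 6) 24, mul_inv]
  field_simp

end Vale.Agent.P225.SeriesAux
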