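import Vale.Agent.P225.Series.Bounds

/-!
P225, module C: the series away from the core is harmonic. The Laplacian is taken term by term; the
sum of the Laplacians vanishes block by block.
-/

noncomputable section

namespace Vale.Agent.P225.SeriesAux

open Matrix SU2 Filter Finset
open scoped ContDiff Topology

/-- Inverse Gram matrix in the labels of the block operators. -/
def lQ (M : Matrix (Fin 6) (Fin 6) ℝ) : Matrix (Bool × Fin 3) (Bool × Fin 3) ℝ :=
  fun a b => ∑ i, ∑ j, if lkDir i = a ∧ lkDir j = b then M⁻¹ i j else 0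

/-- The Laplacian depends only on the germs of the metric and the function. -/
theorem laplacian_congr {g g' : MetricField} {u u' : Pt → ℝ} {v : Pt} (hg : g =ᶠ[𝓝 v] g')
    (hu : u =ᶠ[𝓝 v] u') : laplacian g u v = laplacian g' u' v := by
  have h1 : ∀ a b : Fin 7, (fun y => g y a b) =ᶠ[𝓝 v] fun y => g' y a b := fun a b =>
    hg.mono fun y hy => by simp only [hy]
  have hc : ∀ k i j, christoffel g k i j v = christoffel g' k i j v := fun k i j => by
    simp only [christoffel, pd, hg.eq_of_nhds, (h1 _ _).fderiv_eq]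
  have h2 : ∀ i j, pd (pd u j) i v = pd (pd u' j) i v := fun i j => by
    have h : pd u j =ᶠ[𝓝 v] pd u' j := (hu.fderiv (𝕜 := ℝ)).mono fun y hy => by simp only [pd, hy]
    show fderiv ℝ (pd u j) v (Pi.single i 1) = fderiv ℝ (pd u' j) v (Pi.single i 1)
    rw [h.fderiv_eq]
  simp only [laplacian, hg.eq_of_nhds, hc, h2]
  simp only [pd, hu.fderiv_eq]

/-- The Laplacian of a series is the series of the Laplacians. -/
theorem laplacian_tsum (g : MetricField) {α : Type*} {W : Set Pt} {T : α → Pt → ℂ}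
    (h : SumFam W T) (L : ℂ →L[ℝ] ℝ) {v : Pt} (hv : v ∈ W) :
    HasSum (fun a => laplacian g (fun w => L (T a w)) v)
      (laplacian g (fun w => L (∑' a, T a w)) v) := by
  set f : α → Pt → ℝ := fun a w => L (T a w) with hf
  have hF : SumFam W f := h.comp_left L
  set U : Pt → ℝ := fun w => ∑' a, f a w with hU
  have hUv : laplacian g (fun w => L (∑' a, T a w)) v = laplacian g U v :=
    laplacian_congr (EventuallyEq.refl _ g) (eventually_of_mem (h.isOpen.mem_nhds hv)
      fun w hw => L.map_tsum (h.summable hw))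
  have hP : ∀ j : Fin 7, SumFam W fun a w => pd (f a) j w := fun j =>
    hF.fderiv.comp_left (ContinuousLinearMap.apply ℝ ℝ (Pi.single j 1 : Pt))
  have hone : ∀ {f : α → Pt → ℝ}, SumFam W f → ∀ {w : Pt}, w ∈ W → ∀ j : Fin 7,
      HasSum (fun a => pd (f a) j w) (pd (fun z => ∑' a, f a z) j w) := fun {f} hf {w} hw j => by
    simp only [pd]
    rw [hf.fderiv_tsum hw]
    exact ((hf.fderiv.summable hw).hasSum).mapL (ContinuousLinearMap.apply ℝ ℝ (Pi.single j 1 : Pt))
  have htwo : ∀ i j : Fin 7, HasSum (fun a => pd (pd (f a) j) i v) (pd (pd U j) i v) := fun i j => by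
    have e : pd U j =ᶠ[𝓝 v] fun w => ∑' a, pd (f a) j w :=
      eventually_of_mem (h.isOpen.mem_nhds hv) fun w hw => ((hone hF hw j).tsum_eq).symm
    have : pd (pd U j) i v = pd (fun w => ∑' a, pd (f a) j w) i v := by
      show fderiv ℝ (pd U j) v (Pi.single i 1) = _
      rw [e.fderiv_eq]
      rfl
    rw [this]
    exact hone (hP j) hv i
  rw [hUv]
  simp only [laplacian]
  exact hasSum_sum fun i _ => hasSum_sum fun j _ =>
    ((htwo i j).sub (hasSum_sum fun k _ => (hone hF hv k).mul_left _)).mul_left _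

/-- The Laplacian of a smooth function is continuous. -/
theorem continuousOn_laplacian {g : MetricField} {u : Pt → ℝ} {V : Set Pt} (hV : IsOpen V)
    (hg : ∀ i j, ContDiffOn ℝ ∞ (fun x => g x i j) V) (hp : ∀ x ∈ V, (g x).PosDef)
    (hu : ContDiffOn ℝ ∞ u V) : ContinuousOn (laplacian g u) V := by
  have hu' := contDiffOn_pd hV hu
  exact (ContDiffOn.sum fun i _ => ContDiffOn.sum fun j _ =>
    (contDiffOn_inv_metric hg hp i j).mul ((contDiffOn_pd hV (hu' j) i).sub
      (ContDiffOn.sum fun k _ => (contDiffOn_christoffel hV hg hp k i j).mul (hu' k)))).continuousOn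

/-- A directional derivative through a linear map. -/
theorem dirD_comp_linear (X : Pt → Pt) (L : ℂ →L[ℝ] ℝ) {F : Pt → ℂ} {w : Pt}
    (hF : DifferentiableAt ℝ F w) :
    dirD X (fun z => L (F z)) w = L (fderiv ℝ F w (X w)) := by
  have h : HasFDerivAt (fun z => L (F z)) (L.comp (fderiv ℝ F w)) w :=
    L.hasFDerivAt.comp w hF.hasFDerivAt
  rw [dirD, h.fderiv]
  rfl

theorem contDiffAt_pointFun (y : Pnt) {w : Pt} (hw : w ∈ chartV) :
    ContDiffAt ℝ ∞ (pointFun y) w := by
  have h : pointFun y = fun v =>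
      pfun y ![1, PointFun.sH (Chart.qdir (xC v)), PointFun.sH (thC v)] := rfl
  rw [h]
  refine (pfun_contDiff y).contDiffAt.comp w (contDiffAt_pi.2 fun k => ?_)
  fin_cases k
  exacts [contDiffAt_const, contDiffOn_slot_dir.contDiffAt (Chart.isOpen_chartV.mem_nhds hw),
    (contDiffOn_slots (W := chartV) fun v hv => hv.1).2.contDiffAt
      (Chart.isOpen_chartV.mem_nhds hw)]

/-- A radial factor times a point function, along the frame of a gauge. -/
theorem fderiv_radial_mul (G : Fin 3) {f : ℝ → ℂ} (y : Pnt) {w : Pt} (hw : w ∈ chartV)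
    (hf : DifferentiableAt ℝ f (rad w)) :
    DifferentiableAt ℝ (fun z => f (rad z) * pointFun y z) w ∧
    fderiv ℝ (fun z => f (rad z) * pointFun y z) w (gaugeFrame G 0 w) =
      deriv f (rad w) * pointFun y w ∧
    ∀ i : Fin 6, fderiv ℝ (fun z => f (rad z) * pointFun y z) w (gaugeFrame G (lk i) w) =
      f (rad w) * ∑ z : PntK (lab y (G + 1) + lab y (G + 2)),
        pointFun z.out w * gaugeEntry G (fun p => opX p (lkDir i)) z.out y := by
  have hr : HasFDerivAt rad (fderiv ℝ rad w) w :=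
    ((Chart.contDiffAt_rad hw).differentiableAt (by simp)).hasFDerivAt
  have hP : HasFDerivAt (pointFun y) (fderiv ℝ (pointFun y) w) w :=
    ((contDiffAt_pointFun y hw).differentiableAt (by simp)).hasFDerivAt
  have h := (hf.hasDerivAt.hasFDerivAt.comp w hr).fun_mul' hP
  refine ⟨h.differentiableAt, ?_, fun i => ?_⟩
  · rw [show (fun z => f (rad z) * pointFun y z) = fun z => (f ∘ rad) z * pointFun y z from rfl,
      h.fderiv]
    have h0 := gaugeFrame_rad G hw 0
    simp only [dirD, if_true] at h0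
    simp [h0, pointFun_radial hw G, mul_comm]
  · rw [show (fun z => f (rad z) * pointFun y z) = fun z => (f ∘ rad) z * pointFun y z from rfl,
      h.fderiv]
    have h0 := gaugeFrame_rad G hw (lk i)
    simp only [dirD, lk, Fin.succ_ne_zero, if_false] at h0
    simp [lk, h0, pointFun_deriv hw G i]

theorem sum_pntK_cast {K K' : ℕ} (h : K = K') (F : Pnt → ℂ) :
    ∑ z : PntK K, F z.out = ∑ z : PntK K', F z.out := by
  subst h; rfl

/-- Products of derivative operators act by products, in the block of `y`. -/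
theorem entry_mul_block (G : Fin 3) (M N : ∀ p, BlkMat p) (w y : Pnt) :
    ∑ z : PntK (lab y (G + 1) + lab y (G + 2)), gaugeEntry G M w z.out * gaugeEntry G N z.out y =
      gaugeEntry G (fun p => M p * N p) w y := by
  by_cases h : SameBlk G w y
  · exact gaugeEntry_mul w y (by rw [h.1, h.2.1])
  · rw [gaugeEntry_of_not h]
    refine sum_eq_zero fun z _ => ?_
    by_cases h1 : SameBlk G w z.out
    · rw [gaugeEntry_of_not fun h2 => h (h1.trans h2), mul_zero]
    · rw [gaugeEntry_of_not h1, zero_mul]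

theorem gaugeEntry_linkOp (G : Fin 3) (M : Matrix (Fin 6) (Fin 6) ℝ) (w y : Pnt) :
    gaugeEntry G (linkOp (lQ M)) w y = -∑ i, ∑ j, (M⁻¹ i j : ℂ) *
      gaugeEntry G (fun p => opX p (lkDir i) * opX p (lkDir j)) w y := by
  by_cases h : SameBlk G w y
  swap
  · simp [gaugeEntry_of_not h]
  have hQ : ∀ p, linkOp (lQ M) p =
      -∑ i, ∑ j, (M⁻¹ i j : ℂ) • (opX p (lkDir i) * opX p (lkDir j)) := fun p => by
    rw [linkOp]
    congr 1
    calc ∑ a, ∑ b, (lQ M a b : ℂ) • (opX p a * opX p b)
        = ∑ a, ∑ b, ∑ i, ∑ j, (if lkDir i = a ∧ lkDir j = b then (M⁻¹ i j : ℂ) else 0) •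
            (opX p a * opX p b) := by
          refine sum_congr rfl fun a _ => sum_congr rfl fun b _ => ?_
          simp only [lQ, Complex.ofReal_sum, Finset.sum_smul, apply_ite ((↑) : ℝ → ℂ),
            Complex.ofReal_zero]
      _ = ∑ i, ∑ j, ∑ a, ∑ b, (if lkDir i = a ∧ lkDir j = b then (M⁻¹ i j : ℂ) else 0) •
            (opX p a * opX p b) := by
          rw [sum_congr rfl fun a (_ : a ∈ univ) => sum_comm, sum_comm]
          refine sum_congr rfl fun i _ => ?_
          rw [sum_congr rfl fun a (_ : a ∈ univ) => sum_comm, sum_comm]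
      _ = _ := by simp [ite_and, ite_smul]
  simp only [gaugeEntry_of_same (p := blkLab G w) rfl h, hQ, Matrix.mul_neg, Matrix.neg_mul,
    Matrix.neg_apply, Matrix.mul_sum, Matrix.sum_mul, Matrix.sum_apply, Matrix.mul_smul,
    Matrix.smul_mul, Matrix.smul_apply, smul_eq_mul]

/-- Sums over complete finite blocks cancel. -/
theorem tsum_block_eq_zero (G : Fin 3) {A : Pnt → Pnt → ℂ}
    (hA : ∀ x y, ¬SameBlk G x y → A x y = 0) (P c : Pnt → ℂ) (L : ℂ →L[ℝ] ℝ) {h : Pnt → ℝ}
    (hh : Summable h)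
    (he : ∀ y, h y = L (P y * ∑ z : PntK (lab y (G + 1) + lab y (G + 2)), A y z.out * c z.out -
      c y * ∑ z : PntK (lab y (G + 1) + lab y (G + 2)), P z.out * A z.out y)) :
    ∑' y, h y = 0 := by
  classical
  let key : Pnt → ℕ × ℕ × ℕ × ℕ := fun y =>
    (lab y (G + 1), lab y (G + 2), idx y (G + 1), idx y (G + 2))
  have hkey : ∀ x y, key x = key y ↔ SameBlk G x y := fun x y => by
    simp [key, SameBlk, Prod.mk.injEq]
  rw [← (Equiv.sigmaFiberEquiv key).tsum_eq h,
    Summable.tsum_sigma (f := fun s => h ((Equiv.sigmaFiberEquiv key) s))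
      ((Equiv.sigmaFiberEquiv key).summable_iff.2 hh)]
  refine (tsum_congr fun κ => ?_).trans tsum_zero
  set S : Finset Pnt :=
    (univ.image (PntK.out : PntK (κ.1 + κ.2.1) → Pnt)).filter fun y => key y = κ with hS
  have hmem : ∀ y, y ∈ S ↔ key y = κ := fun y => by
    refine ⟨fun hy => (mem_filter.1 hy).2, fun hy => mem_filter.2 ⟨?_, hy⟩⟩
    subst hy
    have ht : ∀ k, lab y k ≤ lab y (G + 1) + lab y (G + 2) := fun k => by
      have := (lblOK_iff (lab y) G).1 y.1.2
      rcases fin3_cases G k with rfl | rfl | rfl <;> omega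
    exact mem_image.2 ⟨⟨⟨fun k => ⟨lab y k, Nat.lt_succ_of_le (ht k)⟩, y.1.2⟩, y.2⟩,
      mem_univ _, rfl⟩
  have hfin : ∑' y : {y // key y = κ}, h ((Equiv.sigmaFiberEquiv key) ⟨κ, y⟩) = ∑ y ∈ S, h y := by
    rw [← Finset.tsum_subtype S h,
      ← (Equiv.subtypeEquivRight (fun y => hmem y) : {y // y ∈ S} ≃ {y // key y = κ}).tsum_eq]
    rfl
  rw [hfin]
  have hsum : ∀ y ∈ S, ∀ F : Pnt → ℂ, (∀ z, ¬SameBlk G y z → F z = 0) →
      ∑ z : PntK (lab y (G + 1) + lab y (G + 2)), F z.out = ∑ z ∈ S, F z := fun y hy F hF => by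
    have hk := (hmem y).1 hy
    rw [sum_pntK_cast (show lab y (G + 1) + lab y (G + 2) = κ.1 + κ.2.1 by rw [← hk]) F,
      ← sum_image (f := F) fun a _ b _ e => PntK.out_injective e, hS, sum_filter]
    refine sum_congr rfl fun z _ => ?_
    split_ifs with hz
    · rfl
    · exact hF z fun hb => hz (((hkey y z).2 hb).symm.trans hk)
  rw [sum_congr rfl fun y hy => (he y).trans (congrArg L (congrArg₂ (· - ·)
    (congrArg (P y * ·) (hsum y hy (fun z => A y z * c z) fun z hz => by rw [hA y z hz, zero_mul]))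
    (congrArg (c y * ·) (hsum y hy (fun z => P z * A z y) fun z hz => by
      rw [hA z y fun h' => hz h'.symm, mul_zero])))), ← map_sum, sum_sub_distrib]
  have : ∑ y ∈ S, P y * ∑ z ∈ S, A y z * c z = ∑ y ∈ S, c y * ∑ z ∈ S, P z * A z y := by
    simp only [mul_sum]
    rw [sum_comm]
    exact sum_congr rfl fun _ _ => sum_congr rfl fun _ _ => by ring
  rw [this, sub_self, map_zero]

/-- The series away from the core is harmonic where the coefficients solve the equation. -/
theorem laplacian_link_eq_zero {g : MetricField} {c : Pnt → ℝ → ℂ}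
    (hs : ∀ x, ContDiffOn ℝ ∞ (c x) (Set.Ioi 0))
    (hT : SumFam chartV fun x v => c x (rad v) * pointFun x v)
    {G : Fin 3} {M : ℝ → Matrix (Fin 6) (Fin 6) ℝ} {v : Pt} (hv : v ∈ chartV) {ε : ℝ} (hε : 0 < ε)
    (hM : ∀ s ∈ Set.Ioo (rad v - ε) (rad v + ε),
      (M s).PosDef ∧ ∀ i j, ContDiffAt ℝ ∞ (fun u => M u i j) s)
    (hsym : ∀ s, (M s).IsSymm)
    (hg : ∀ w ∈ chartV, rad w ∈ Set.Ioo (rad v - ε) (rad v + ε) → g w = gaugeMetric G M w)
    (hode : ∀ x : Pnt, ∀ s ∈ Set.Ioo (rad v - ε) (rad v + ε),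
      deriv (deriv (c x)) s + ((1 / 2 * ((M s)⁻¹ * mderiv M s).trace : ℝ) : ℂ) * deriv (c x) s =
        ∑ z : PntK (lab x (G + 1) + lab x (G + 2)),
          gaugeEntry G (linkOp (lQ (M s))) x z.out * c z.out s)
    (L : ℂ →L[ℝ] ℝ) :
    laplacian g (fun w => L (∑' x, c x (rad w) * pointFun x w)) v = 0 := by
  set W : Set Pt := chartV ∩ rad ⁻¹' Set.Ioo (rad v - ε) (rad v + ε) with hWdef
  have hW : IsOpen W := (chart_contDiffOn.2.2.continuousOn).isOpen_inter_preimage
    Chart.isOpen_chartV isOpen_Ioo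
  have hvr : rad v ∈ Set.Ioo (rad v - ε) (rad v + ε) := ⟨by linarith, by linarith⟩
  have hvW : v ∈ W := ⟨hv, hvr⟩
  have hwar : IsWarped W (gaugeMetric G M) (gaugeFrame G) rad M linkC chartC :=
    gaugeMetric_isWarped G hW (fun w hw => hw.1) (fun w hw => (hM _ hw.2).2) hsym
      fun w hw => (hM _ hw.2).1
  have hcg : g =ᶠ[𝓝 v] gaugeMetric G M :=
    eventually_of_mem (hW.mem_nhds hvW) fun w hw => hg w hw.1 hw.2
  have hsum := laplacian_tsum g hT L hv
  rw [← hsum.tsum_eq]
  refine tsum_block_eq_zero G (A := gaugeEntry G (linkOp (lQ (M (rad v)))))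
    (fun x y h => gaugeEntry_of_not h) (fun z => pointFun z v) (fun z => c z (rad v)) L hsum.summable
    fun y => ?_
  have hd1 : ∀ x : Pnt, ∀ w ∈ chartV, DifferentiableAt ℝ (c x) (rad w) ∧
      DifferentiableAt ℝ (deriv (c x)) (rad w) := fun x w hw => by
    have hp : rad w ∈ Set.Ioi (0 : ℝ) := Chart.qlen_pos hw.2
    exact ⟨((hs x).contDiffAt (isOpen_Ioi.mem_nhds hp)).differentiableAt (by simp),
      (((hs x).deriv_of_isOpen isOpen_Ioi le_rfl : ContDiffOn ℝ ∞ (deriv (c x)) _).contDiffAt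
        (isOpen_Ioi.mem_nhds hp)).differentiableAt (by simp)⟩
  set T : Pt → ℂ := fun w => c y (rad w) * pointFun y w with hTdef
  set K := lab y (G + 1) + lab y (G + 2) with hKdef
  have hu : ContDiffOn ℝ ∞ (fun w => L (T w)) W :=
    (L.contDiff.comp_contDiffOn (hT.smooth y)).mono fun w hw => hw.1
  rw [laplacian_congr hcg (EventuallyEq.refl _ _), laplacian_warped hwar hu hvW]
  have e0 : ∀ w ∈ W, dirD (gaugeFrame G 0) (fun z => L (T z)) w =
      L (deriv (c y) (rad w) * pointFun y w) := fun w hw => by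
    obtain ⟨hd, h0, -⟩ := fderiv_radial_mul G y hw.1 (hd1 y w hw.1).1
    rw [dirD_comp_linear _ L hd, h0]
  have ei : ∀ (i : Fin 6), ∀ w ∈ W, dirD (gaugeFrame G (lk i)) (fun z => L (T z)) w =
      L (∑ z : PntK K, c y (rad w) * pointFun z.out w *
        gaugeEntry G (fun p => opX p (lkDir i)) z.out y) := fun i w hw => by
    obtain ⟨hd, -, hi⟩ := fderiv_radial_mul G y hw.1 (hd1 y w hw.1).1
    rw [dirD_comp_linear _ L hd, hi i, mul_sum]
    simp only [mul_assoc]
    rfl
  have hcong : ∀ (X : Pt → Pt) (F F' : Pt → ℝ), (∀ w ∈ W, F w = F' w) →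
      dirD X F v = dirD X F' v := fun X F F' h => by
    have e : F =ᶠ[𝓝 v] F' := eventually_of_mem (hW.mem_nhds hvW) h
    rw [dirD, dirD, e.fderiv_eq]
  have e00 : dirD (gaugeFrame G 0) (dirD (gaugeFrame G 0) fun z => L (T z)) v =
      L (deriv (deriv (c y)) (rad v) * pointFun y v) := by
    obtain ⟨hd, h0, -⟩ := fderiv_radial_mul G y hv (hd1 y v hv).2
    rw [hcong _ _ _ e0, dirD_comp_linear _ L hd, h0]
  have eij : ∀ i j : Fin 6, dirD (gaugeFrame G (lk i))
      (dirD (gaugeFrame G (lk j)) fun z => L (T z)) v =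
      L (c y (rad v) * ∑ w : PntK K, pointFun w.out v *
        gaugeEntry G (fun p => opX p (lkDir i) * opX p (lkDir j)) w.out y) := fun i j => by
    have hz : ∀ z : PntK K, DifferentiableAt ℝ
        (fun w => c y (rad w) * pointFun z.out w *
          gaugeEntry G (fun p => opX p (lkDir j)) z.out y) v := fun z =>
      (fderiv_radial_mul G z.out hv (hd1 y v hv).1).1.mul_const _
    rw [hcong _ _ _ (ei j), dirD_comp_linear _ L (DifferentiableAt.fun_sum fun z _ => hz z),
      fderiv_fun_sum fun z _ => hz z, _root_.sum_apply]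
    congr 1
    calc ∑ z : PntK K, fderiv ℝ (fun w => c y (rad w) * pointFun z.out w *
          gaugeEntry G (fun p => opX p (lkDir j)) z.out y) v (gaugeFrame G (lk i) v)
        = ∑ z : PntK K, ∑ w : PntK K, c y (rad v) * (pointFun w.out v *
            (gaugeEntry G (fun p => opX p (lkDir i)) w.out z.out *
              gaugeEntry G (fun p => opX p (lkDir j)) z.out y)) := by
          refine sum_congr rfl fun z _ => ?_
          obtain ⟨hd, -, hi⟩ := fderiv_radial_mul G z.out hv (hd1 y v hv).1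
          rw [fderiv_mul_const hd]
          simp only [_root_.smul_apply, hi i, smul_eq_mul]
          by_cases hb : SameBlk G z.out y
          · rw [sum_pntK_cast (show lab z.out (G + 1) + lab z.out (G + 2) = K by
              rw [hb.1, hb.2.1]) fun w => pointFun w v *
                gaugeEntry G (fun p => opX p (lkDir i)) w z.out, mul_sum, mul_sum]
            exact sum_congr rfl fun w _ => by ring
          · simp [gaugeEntry_of_not hb]
      _ = _ := by
          rw [sum_comm, mul_sum]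
          refine sum_congr rfl fun w _ => ?_
          rw [← entry_mul_block G _ _ w.out y, mul_sum, mul_sum]
  rw [e00, e0 v hvW]
  simp only [eij]
  set τ := (1 / 2 : ℝ) * ((M (rad v))⁻¹ * mderiv M (rad v)).trace
  have hsc : ∀ (t : ℝ) (a : ℂ), t * L a = L ((t : ℂ) * a) := fun t a => by
    rw [← Complex.real_smul, map_smul, smul_eq_mul]
  simp only [hsc, ← map_sum, ← map_add]
  congr 1
  rw [← hode y (rad v) hvr, mul_add]
  have e2 : ∑ z : PntK K, pointFun z.out v * gaugeEntry G (linkOp (lQ (M (rad v)))) z.out y =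
      -∑ i, ∑ j, ((M (rad v))⁻¹ i j : ℂ) * ∑ w : PntK K, pointFun w.out v *
        gaugeEntry G (fun p => opX p (lkDir i) * opX p (lkDir j)) w.out y := by
    simp only [gaugeEntry_linkOp, mul_neg, sum_neg_distrib, mul_sum]
    rw [sum_comm]
    refine congrArg Neg.neg (sum_congr rfl fun i _ => ?_)
    rw [sum_comm]
    exact sum_congr rfl fun j _ => sum_congr rfl fun w _ => by ring
  rw [e2, mul_neg, sub_neg_eq_add, mul_sum]
  congr 1
  · ring
  · refine sum_congr rfl fun i _ => ?_
    rw [mul_sum]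
    exact sum_congr rfl fun j _ => by ring

end Vale.Agent.P225.SeriesAux
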