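import Vale.Agent.P225.SU2.Functions

/-!
P225, module C: orthogonality of the entries of the representations on unit quaternions (Schur's
argument over a shell, invariant under left multiplication), and independence of infinite series of
point functions.
-/

noncomputable section

namespace Vale.Agent.P225.SeriesAux

open Matrix SU2 MeasureTheory
open scoped Quaternion Matrix.Norms.L2Operator ENNReal

attribute [local irreducible] rep SU2.inv

/-- Four coordinates with the Euclidean norm. -/
abbrev E4 := EuclideanSpace ℝ (Fin 4)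

/-- The unit quaternion in the direction of a vector. -/
def uq (p : E4) : ℍ[ℝ] := ‖p‖⁻¹ • Quaternion.linearIsometryEquivTuple.symm p

/-- The shell. -/
def shell : Set E4 := Metric.ball 0 2 \ Metric.closedBall 0 1

/-- The measure used for averaging over unit quaternions. -/
def shellMeas : Measure E4 := volume.restrict shell

theorem isOpen_shell : IsOpen shell := Metric.isOpen_ball.sdiff Metric.isClosed_closedBall

theorem shell_ne_zero {p : E4} (hp : p ∈ shell) : p ≠ 0 := by
  rintro rfl
  exact hp.2 (by simp)

theorem norm_uq {p : E4} (hp : p ∈ shell) : ‖uq p‖ = 1 := by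
  rw [uq, norm_smul, LinearIsometryEquiv.norm_map, norm_inv, norm_norm,
    inv_mul_cancel₀ (norm_ne_zero_iff.2 (shell_ne_zero hp))]

theorem continuousOn_uq : ContinuousOn uq shell :=
  (continuous_norm.continuousOn.inv₀ fun p hp => norm_ne_zero_iff.2 (shell_ne_zero hp)).smul
    Quaternion.linearIsometryEquivTuple.symm.continuous.continuousOn

instance shellMeas_finite : IsFiniteMeasure shellMeas :=
  isFiniteMeasure_restrict.2
    ((measure_mono Set.sdiff_subset).trans_lt measure_ball_lt_top).ne

theorem shell_pos : 0 < shellMeas.real Set.univ := by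
  have h : volume shell ≠ 0 := by
    refine (isOpen_shell.measure_pos volume ⟨EuclideanSpace.single 0 (3 / 2 : ℝ), ?_, ?_⟩).ne'
    · rw [Metric.mem_ball, dist_zero_right, PiLp.norm_single]; norm_num
    · rw [Metric.mem_closedBall, dist_zero_right, PiLp.norm_single]; norm_num
  rw [measureReal_def, shellMeas, Measure.restrict_apply_univ]
  exact ENNReal.toReal_pos h ((measure_mono Set.sdiff_subset).trans_lt measure_ball_lt_top).ne

/-- The average of a function over unit quaternions. -/
def avg (f : ℍ[ℝ] → ℂ) : ℂ := ∫ p, f (uq p) ∂shellMeas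

theorem integrable_uq {f : ℍ[ℝ] → ℂ} (hf : Continuous f) {C : ℝ}
    (hC : ∀ q : ℍ[ℝ], ‖q‖ = 1 → ‖f q‖ ≤ C) : Integrable (fun p => f (uq p)) shellMeas :=
  Integrable.of_bound
    ((hf.comp_continuousOn continuousOn_uq).aestronglyMeasurable isOpen_shell.measurableSet) C
    (ae_restrict_of_forall_mem isOpen_shell.measurableSet fun p hp => hC _ (norm_uq hp))

theorem avg_mul_left {h : ℍ[ℝ]} (hh : ‖h‖ = 1) (f : ℍ[ℝ] → ℂ) :
    avg (fun q => f (h * q)) = avg f := by
  let T : ℍ[ℝ] ≃ₗᵢ[ℝ] ℍ[ℝ] :=
    { toFun := fun q => h * q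
      map_add' := mul_add h
      map_smul' := fun r q => by simp
      invFun := fun q => star h * q
      left_inv := fun q => by
        show star h * (h * q) = q
        rw [← mul_assoc, Quaternion.star_mul_self, Quaternion.normSq_eq_norm_mul_self, hh]
        simp
      right_inv := fun q => by
        show h * (star h * q) = q
        rw [← mul_assoc, Quaternion.self_mul_star, Quaternion.normSq_eq_norm_mul_self, hh]
        simp
      norm_map' := fun q => by
        show ‖h * q‖ = ‖q‖
        rw [norm_mul, hh, one_mul] }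
  let e := Quaternion.linearIsometryEquivTuple
  let S : E4 ≃ₗᵢ[ℝ] E4 := (e.symm.trans T).trans e
  have hu : ∀ p, uq (S p) = h * uq p := fun p => by
    rw [uq, uq, LinearIsometryEquiv.norm_map, mul_smul_comm]
    exact congrArg _ (e.symm_apply_apply _)
  have hpre : S ⁻¹' shell = shell := by
    ext p
    simp [shell]
  have := S.measurePreserving.setIntegral_preimage_emb S.toHomeomorph.measurableEmbedding
    (fun p => f (uq p)) shell
  rw [hpre] at this
  rw [avg, avg, shellMeas, ← this]
  exact setIntegral_congr_fun isOpen_shell.measurableSet fun p _ => by simp only [hu]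

theorem continuous_entry (a : ℕ) (i j : Fin (a + 1)) :
    Continuous fun q : ℍ[ℝ] => rep a q i j :=
  (entryL a i j).continuous.comp (rep_contDiff a (n := 0)).continuous

theorem norm_entry_le (a : ℕ) (i j : Fin (a + 1)) {q : ℍ[ℝ]} (hq : ‖q‖ = 1) :
    ‖rep a q i j‖ ≤ 1 := by
  have h := (col_norm_sq_le (rep a q) j).trans
    (pow_le_pow_left₀ (norm_nonneg _) (norm_rep_le a q) 2)
  rw [hq, one_pow, one_pow] at h
  have h2 := (Finset.single_le_sum (f := fun k => ‖rep a q k j‖ ^ 2) (fun _ _ => sq_nonneg _)
    (Finset.mem_univ i)).trans h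
  nlinarith [norm_nonneg (rep a q i j)]

/-- The pairing of two entries. -/
def pair (a b : ℕ) (j : Fin (a + 1)) (l : Fin (b + 1)) :
    Matrix (Fin (a + 1)) (Fin (b + 1)) ℂ :=
  Matrix.of fun i k => avg fun q => rep a q i j * star (rep b q k l)

theorem pair_integrable (a b : ℕ) (i j : Fin (a + 1)) (k l : Fin (b + 1)) :
    Integrable (fun p => rep a (uq p) i j * star (rep b (uq p) k l)) shellMeas := by
  refine integrable_uq (f := fun q => rep a q i j * star (rep b q k l))
    ((continuous_entry a i j).mul (continuous_star.comp (continuous_entry b k l))) (C := 1)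
    fun q hq => ?_
  rw [norm_mul, norm_star]
  exact mul_le_one₀ (norm_entry_le a i j hq) (norm_nonneg _) (norm_entry_le b k l hq)

theorem pair_conj (a b : ℕ) (j : Fin (a + 1)) (l : Fin (b + 1)) {h : ℍ[ℝ]} (hh : ‖h‖ = 1) :
    rep a h * pair a b j l = pair a b j l * rep b h := by
  have e : pair a b j l = rep a h * pair a b j l * (rep b h)ᴴ := by
    ext i k
    simp only [Matrix.mul_apply, Matrix.conjTranspose_apply, pair, Matrix.of_apply, Finset.sum_mul]
    rw [← avg_mul_left hh (fun q => rep a q i j * star (rep b q k l))]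
    simp only [avg, rep_mul, Matrix.mul_apply, star_sum, star_mul', Finset.sum_mul_sum]
    have hint : ∀ m n, Integrable (fun p => rep a h i m * rep a (uq p) m j *
        (star (rep b h k n) * star (rep b (uq p) n l))) shellMeas := fun m n => by
      simpa only [mul_mul_mul_comm] using
        (pair_integrable a b m j n l).const_mul (rep a h i m * star (rep b h k n))
    rw [integral_finsetSum _ fun m _ => integrable_finsetSum _ fun n _ => hint m n]
    conv_lhs => rw [Finset.sum_congr rfl fun m _ => integral_finsetSum _ fun n _ => hint m n,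
      Finset.sum_comm]
    refine Finset.sum_congr rfl fun n _ => Finset.sum_congr rfl fun m _ => ?_
    rw [show rep a h i m * (∫ p, rep a (uq p) m j * star (rep b (uq p) n l) ∂shellMeas) *
      star (rep b h k n) = rep a h i m * star (rep b h k n) *
        ∫ p, rep a (uq p) m j * star (rep b (uq p) n l) ∂shellMeas by ring,
      ← integral_const_mul]
    exact integral_congr_ae (Filter.Eventually.of_forall fun p => by simp only; ring)
  have hu : (rep b h)ᴴ * rep b h = 1 := by
    rw [← rep_star, ← rep_mul, Quaternion.star_mul_self, Quaternion.normSq_eq_norm_mul_self, hh]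
    simp [rep_one]
  conv_rhs => rw [e]
  rw [Matrix.mul_assoc, hu, Matrix.mul_one]

theorem pair_gen (a b : ℕ) (j : Fin (a + 1)) (l : Fin (b + 1)) (k : Fin 3) :
    gen a k * pair a b j l = pair a b j l * gen b k := by
  ext i m
  simp only [Matrix.mul_apply]
  set c : ℝ → ℍ[ℝ] := fun s => Real.cos s • (1 : ℍ[ℝ]) + Real.sin s • imUnit k
  have h1 : HasDerivAt (fun s => ∑ n, rep a (c s) i n * pair a b j l n m)
      (∑ n, 2 * gen a k i n * pair a b j l n m) 0 :=
    HasDerivAt.fun_sum fun n _ => (rep_hasDerivAt a k i n).mul_const _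
  have h2 : HasDerivAt (fun s => ∑ n, pair a b j l i n * rep b (c s) n m)
      (∑ n, pair a b j l i n * (2 * gen b k n m)) 0 :=
    HasDerivAt.fun_sum fun n _ => (rep_hasDerivAt b k n m).const_mul _
  have e : (fun s => ∑ n, rep a (c s) i n * pair a b j l n m) =
      fun s => ∑ n, pair a b j l i n * rep b (c s) n m := funext fun s => by
    simpa only [Matrix.mul_apply] using
      congrFun (congrFun (pair_conj a b j l (norm_imUnit_curve k s)) i) m
  rw [e] at h1
  have h3 := h1.unique h2
  simp only [mul_assoc, mul_left_comm (pair a b j l i _) (2 : ℂ), ← Finset.mul_sum] at h3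
  exact mul_left_cancel₀ two_ne_zero h3

theorem pair_eq_zero {a b : ℕ} (hab : a ≠ b) (j : Fin (a + 1)) (l : Fin (b + 1)) :
    pair a b j l = 0 := by
  have h : (-cas a : ℂ) • pair a b j l = (-cas b : ℂ) • pair a b j l := by
    calc (-cas a : ℂ) • pair a b j l = (∑ k, gen a k * gen a k) * pair a b j l := by
          rw [gen_casimir, Matrix.smul_mul, Matrix.one_mul]
      _ = pair a b j l * ∑ k, gen b k * gen b k := by
          rw [Matrix.sum_mul, Matrix.mul_sum]
          refine Finset.sum_congr rfl fun k _ => ?_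
          rw [Matrix.mul_assoc, pair_gen, ← Matrix.mul_assoc, pair_gen, Matrix.mul_assoc]
      _ = _ := by rw [gen_casimir, Matrix.mul_smul, Matrix.mul_one]
  rw [← sub_eq_zero, ← sub_smul] at h
  refine (smul_eq_zero.1 h).resolve_left (sub_ne_zero.2 fun e => hab ?_)
  have e' : cas a = cas b := by exact_mod_cast neg_injective e
  have : (a : ℝ) = b := by
    unfold cas at e'
    nlinarith [(Nat.cast_nonneg a : (0 : ℝ) ≤ a), (Nat.cast_nonneg b : (0 : ℝ) ≤ b)]
  exact Nat.cast_inj.1 this

theorem pair_self (a : ℕ) (j l : Fin (a + 1)) :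
    pair a a j l = (if j = l then (shellMeas.real Set.univ : ℂ) / (a + 1) else 0) • 1 := by
  obtain ⟨c, hc⟩ := scalar_of_commute (A := (pair a a j l)ᵀ) fun k => by
    rw [← Matrix.transpose_mul, ← Matrix.transpose_mul, pair_gen]
  have hT : pair a a j l = c • 1 := by
    rw [← Matrix.transpose_transpose (pair a a j l), hc]
    simp
  have htr : (pair a a j l).trace = if j = l then (shellMeas.real Set.univ : ℂ) else 0 := by
    simp only [Matrix.trace, Matrix.diag, pair, Matrix.of_apply, avg]
    rw [← integral_finsetSum _ fun i _ => pair_integrable a a i j i l]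
    have hu : ∀ p ∈ shell, ∑ i, rep a (uq p) i j * star (rep a (uq p) i l) =
        if j = l then 1 else 0 := fun p hp => by
      have h : (rep a (uq p))ᴴ * rep a (uq p) = 1 := by
        rw [← rep_star, ← rep_mul, Quaternion.star_mul_self, Quaternion.normSq_eq_norm_mul_self,
          norm_uq hp]
        simp [rep_one]
      have h' := congrFun (congrFun h l) j
      simp only [Matrix.mul_apply, Matrix.conjTranspose_apply, Matrix.one_apply] at h'
      simp only [mul_comm (rep a (uq p) _ j), h', eq_comm]
    rw [shellMeas, setIntegral_congr_fun isOpen_shell.measurableSet hu]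
    split_ifs <;> simp [measureReal_def]
  rw [hT, Matrix.trace_smul, Matrix.trace_one, smul_eq_mul, Fintype.card_fin] at htr
  have hne : ((a + 1 : ℕ) : ℂ) ≠ 0 := by exact_mod_cast Nat.succ_ne_zero a
  rw [hT]
  congr 1
  rw [eq_div_iff hne |>.2 htr]
  split_ifs <;> simp

theorem avg_entry (i e : EIdx) :
    avg (fun q => entryFun i q * star (entryFun e q)) =
      if i = e then (shellMeas.real Set.univ : ℂ) / (i.1 + 1) else 0 := by
  obtain ⟨a, i, j⟩ := i
  obtain ⟨b, k, l⟩ := e
  change pair a b j l i k = _
  by_cases hab : a = b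
  · subst hab
    rw [pair_self, Matrix.smul_apply, Matrix.one_apply, smul_eq_mul]
    by_cases hj : j = l <;> by_cases hi : i = k <;> simp [hj, hi]
  · rw [pair_eq_zero hab]
    simp [hab]

/-- One slot of an infinite independence. -/
theorem peel_tsum {ι : Type*} [Countable ι] (f : ι → EIdx) {d : ι → ℂ}
    (hd : Summable fun j => ‖d j‖)
    (h : ∀ q : ℍ[ℝ], ‖q‖ = 1 → ∑' j, entryFun (f j) q * d j = 0) (e : EIdx) :
    ∑' j, (if f j = e then d j else 0) = 0 := by
  classical
  have hcont : ∀ j, Continuous fun q => entryFun (f j) q * d j * star (entryFun e q) := fun j =>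
    ((continuous_entry _ _ _).mul_const _).mul (continuous_star.comp (continuous_entry _ _ _))
  have hbd : ∀ j, ∀ q : ℍ[ℝ], ‖q‖ = 1 →
      ‖entryFun (f j) q * d j * star (entryFun e q)‖ ≤ ‖d j‖ := fun j q hq => by
    rw [norm_mul, norm_mul, norm_star]
    exact (mul_le_of_le_one_right (mul_nonneg (norm_nonneg _) (norm_nonneg _))
      (norm_entry_le _ _ _ hq)).trans
      (mul_le_of_le_one_left (norm_nonneg _) (norm_entry_le _ _ _ hq))
  have hint : ∀ j, Integrable (fun p => entryFun (f j) (uq p) * d j * star (entryFun e (uq p)))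
      shellMeas := fun j => integrable_uq (hcont j) (hbd j)
  have hsum : Summable fun j => ∫ p, ‖entryFun (f j) (uq p) * d j * star (entryFun e (uq p))‖
      ∂shellMeas := by
    refine (hd.mul_left (shellMeas.real Set.univ)).of_nonneg_of_le
      (fun j => integral_nonneg fun p => norm_nonneg _) fun j => ?_
    refine (integral_mono_of_nonneg (Filter.Eventually.of_forall fun p => norm_nonneg _)
      (integrable_const (μ := shellMeas) ‖d j‖)
      (ae_restrict_of_forall_mem isOpen_shell.measurableSet
        fun p hp => hbd j _ (norm_uq hp))).trans_eq ?_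
    rw [integral_const, smul_eq_mul]
  have hkey := integral_tsum_of_summable_integral_norm hint hsum
  have hz : ∫ p, ∑' j, entryFun (f j) (uq p) * d j * star (entryFun e (uq p)) ∂shellMeas = 0 := by
    refine integral_eq_zero_of_ae (ae_restrict_of_forall_mem isOpen_shell.measurableSet fun p hp => ?_)
    show ∑' j, entryFun (f j) (uq p) * d j * star (entryFun e (uq p)) = 0
    rw [tsum_mul_right, h _ (norm_uq hp), zero_mul]
  rw [hz] at hkey
  have hterm : ∀ j, ∫ p, entryFun (f j) (uq p) * d j * star (entryFun e (uq p)) ∂shellMeas =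
      ((shellMeas.real Set.univ : ℂ) / (e.1 + 1)) * if f j = e then d j else 0 := fun j => by
    calc _ = d j * avg (fun q => entryFun (f j) q * star (entryFun e q)) := by
          rw [avg, ← integral_const_mul]
          exact integral_congr_ae (Filter.Eventually.of_forall fun p => by simp only; ring)
      _ = _ := by
          rw [avg_entry]
          split_ifs with he
          · rw [he, mul_comm]
          · simp
  simp only [hterm, tsum_mul_left] at hkey
  refine (mul_eq_zero.1 hkey).resolve_left ?_
  exact div_ne_zero (by exact_mod_cast shell_pos.ne') (Nat.cast_add_one_ne_zero _)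

/-- Independence of infinite series of point functions on unit triples. -/
theorem pfun_tsum_independent {c : Pnt → ℂ}
    (hc : Summable fun x => ‖c x‖ * (∏ k, ((lab x k : ℝ) + 1)) ^ 2)
    (h : ∀ g : Fin 3 → ℍ[ℝ], g 0 = 1 → (∀ k, ‖g k‖ = 1) → ∑' x, c x * pfun x g = 0) :
    ∀ x, c x = 0 := by
  classical
  have hall : ∀ g : Fin 3 → ℍ[ℝ], (∀ k, ‖g k‖ = 1) → ∑' x, c x * pfun x g = 0 := by
    intro g hg
    have hh : ‖star (g 0)‖ = 1 := by rw [norm_star]; exact hg 0
    rw [← h (fun k => star (g 0) * g k) ?_ fun k => by rw [norm_mul, hh, hg, mul_one]]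
    · exact tsum_congr fun x => by rw [pfun_mul_left x hh]
    · rw [Quaternion.star_mul_self, Quaternion.normSq_eq_norm_mul_self, hg]
      simp
  let J : ((x : Pnt) × MIdx (lab x)) → Fin 3 → EIdx := fun z k =>
    ⟨lab z.1 k, (z.2 k, z.1.2 k)⟩
  let C : ((x : Pnt) × MIdx (lab x)) → ℂ := fun z =>
    c z.1 * (Real.sqrt (∏ k, ((lab z.1 k : ℝ) + 1)) : ℂ) * SU2.inv (lab z.1) z.2
  have hC : Summable fun z => ‖C z‖ := by
    refine (summable_sigma_of_nonneg fun z => norm_nonneg _).2
      ⟨fun x => Summable.of_finite, hc.of_nonneg_of_le (fun x => tsum_nonneg fun _ => norm_nonneg _)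
        fun x => ?_⟩
    rw [tsum_fintype]
    have hP : (1 : ℝ) ≤ ∏ k, ((lab x k : ℝ) + 1) := Finset.one_le_prod fun k => by simp
    refine (Finset.sum_le_card_nsmul _ _ (‖c x‖ * ∏ k, ((lab x k : ℝ) + 1)) fun m _ => ?_).trans
      (le_of_eq ?_)
    · simp only [C, norm_mul, Complex.norm_real, Real.norm_of_nonneg (Real.sqrt_nonneg _)]
      have hi : ‖SU2.inv (lab x) m‖ ≤ 1 := by
        have h := Finset.single_le_sum (f := fun m => ‖SU2.inv (lab x) m‖ ^ 2)
          (fun _ _ => sq_nonneg _) (Finset.mem_univ m)
        rw [inv_norm x.1.2] at h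
        nlinarith [norm_nonneg (SU2.inv (lab x) m)]
      refine (mul_le_of_le_one_right (by positivity) hi).trans ?_
      refine mul_le_mul_of_nonneg_left ?_ (norm_nonneg _)
      rw [Real.sqrt_le_left (by linarith)]
      exact le_self_pow₀ hP two_ne_zero
    · simp
      ring
  have hcount : Countable ((x : Pnt) × MIdx (lab x)) := inferInstance
  have hle : ∀ (e : EIdx) {q : ℍ[ℝ]}, ‖q‖ = 1 → ‖entryFun e q‖ ≤ 1 := fun e q hq =>
    norm_entry_le _ _ _ hq
  have hs2 : ∀ e, ‖e‖ = 1 → Summable fun z => ‖entryFun (J z 2) e * C z‖ := fun e he =>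
    hC.of_nonneg_of_le (fun z => norm_nonneg _) fun z => by
      rw [norm_mul]
      exact mul_le_of_le_one_left (norm_nonneg _) (hle _ he)
  have hzero : ∀ a b e : ℍ[ℝ], ‖a‖ = 1 → ‖b‖ = 1 → ‖e‖ = 1 →
      ∑' z, entryFun (J z 0) a * (entryFun (J z 1) b * (entryFun (J z 2) e * C z)) = 0 := by
    intro a b e ha hb he
    have hs : Summable fun z => entryFun (J z 0) a *
        (entryFun (J z 1) b * (entryFun (J z 2) e * C z)) :=
      Summable.of_norm_bounded (hs2 e he) fun z => by
        rw [norm_mul]
        refine (mul_le_of_le_one_left (norm_nonneg _) (hle _ ha)).trans ?_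
        rw [norm_mul]
        exact mul_le_of_le_one_left (norm_nonneg _) (hle _ hb)
    rw [hs.tsum_sigma, ← hall ![a, b, e] fun k => by fin_cases k <;> assumption]
    refine tsum_congr fun x => ?_
    rw [tsum_fintype, pfun, Finset.mul_sum, Finset.mul_sum]
    refine Finset.sum_congr rfl fun n _ => ?_
    simp only [C, J, entryFun, Fin.prod_univ_three]
    simp only [Matrix.cons_val_zero, Matrix.cons_val_one, Matrix.cons_val]
    ring
  intro x
  by_contra hcx
  obtain ⟨m, hm⟩ : ∃ m, SU2.inv (lab x) m ≠ 0 := by
    by_contra hno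
    rw [not_exists] at hno
    have := inv_norm x.1.2
    simp [fun m => not_not.1 (hno m)] at this
  set z0 : (x : Pnt) × MIdx (lab x) := ⟨x, m⟩ with hz0
  set d0 : ((x : Pnt) × MIdx (lab x)) → ℂ := fun z => if J z 0 = J z0 0 then C z else 0 with hd0
  have hd0le : ∀ z, ‖d0 z‖ ≤ ‖C z‖ := fun z => by
    rw [hd0]; simp only; split_ifs <;> simp
  set d1 : ((x : Pnt) × MIdx (lab x)) → ℂ := fun z => if J z 1 = J z0 1 then d0 z else 0 with hd1
  have hd1le : ∀ z, ‖d1 z‖ ≤ ‖C z‖ := fun z => by
    rw [hd1]; simp only; split_ifs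
    · exact hd0le z
    · simp
  have h0 : ∀ b e : ℍ[ℝ], ‖b‖ = 1 → ‖e‖ = 1 →
      ∑' z, entryFun (J z 1) b * (entryFun (J z 2) e * d0 z) = 0 := fun b e hb he => by
    refine (tsum_congr fun z => ?_).trans (peel_tsum (fun z => J z 0)
      (d := fun z => entryFun (J z 1) b * (entryFun (J z 2) e * C z))
      ((hs2 e he).of_nonneg_of_le (fun z => norm_nonneg _) fun z => by
        rw [norm_mul]; exact mul_le_of_le_one_left (norm_nonneg _) (hle _ hb))
      (fun a ha => hzero a b e ha hb he) (J z0 0))
    rw [hd0]; simp only; split_ifs <;> simp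
  have h1 : ∀ e : ℍ[ℝ], ‖e‖ = 1 → ∑' z, entryFun (J z 2) e * d1 z = 0 := fun e he => by
    refine (tsum_congr fun z => ?_).trans (peel_tsum (fun z => J z 1)
      (d := fun z => entryFun (J z 2) e * d0 z)
      (hC.of_nonneg_of_le (fun z => norm_nonneg _) fun z => by
        rw [norm_mul]
        exact (mul_le_of_le_one_left (norm_nonneg _) (hle _ he)).trans (hd0le z))
      (fun b hb => h0 b e hb he) (J z0 1))
    rw [hd1]; simp only; split_ifs <;> simp
  have h2 := peel_tsum (fun z => J z 2) (hC.of_nonneg_of_le (fun z => norm_nonneg _) hd1le) h1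
    (J z0 2)
  rw [tsum_eq_single z0] at h2
  · simp only [hd1, hd0, if_true, C, z0, mul_eq_zero, Complex.ofReal_eq_zero] at h2
    rcases h2 with (h2 | h2) | h2
    · exact hcx h2
    · exact absurd h2 (Real.sqrt_ne_zero'.2 (by positivity))
    · exact hm h2
  · intro z hz
    simp only [hd1, hd0]
    split_ifs with a b e
    · refine absurd ?_ hz
      have hJ : Function.Injective J := by
        rintro ⟨⟨⟨t, ht⟩, m⟩, n⟩ ⟨⟨⟨t', ht'⟩, m'⟩, n'⟩ e
        obtain rfl : t = t' := funext fun k => congrArg Sigma.fst (congrFun e k)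
        have e' : ∀ k, (n k, m k) = (n' k, m' k) := fun k => by simpa [J] using congrFun e k
        obtain rfl : m = m' := funext fun k => (Prod.ext_iff.1 (e' k)).2
        obtain rfl : n = n' := funext fun k => (Prod.ext_iff.1 (e' k)).1
        rfl
      exact hJ (funext fun k => by fin_cases k <;> assumption)
    all_goals rfl

end Vale.Agent.P225.SeriesAux
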