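import Vale.Agent.P225.Series.PointFun
import Vale.Agent.P225.Series.Harm
import Vale.Agent.P225.Series.Orth

/-!
P225, module C: series of point functions on the chart, and their exact harmonicity.
-/

noncomputable section

namespace Vale.Agent.P225

open Matrix SU2
open scoped ContDiff Quaternion Topology

/-- The three slots `1, conj x, conj θ`. -/
def coreTriple (v : Pt) : Fin 3 → ℍ[ℝ] := ![1, star (qH (xC v)), star (qH (thC v))]

/-- Inverse Gram matrix in the labels of the block operators. -/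
def linkQ (M : Matrix (Fin 6) (Fin 6) ℝ) : Matrix (Bool × Fin 3) (Bool × Fin 3) ℝ :=
  fun a b => ∑ i, ∑ j, if lkDir i = a ∧ lkDir j = b then M⁻¹ i j else 0

/-- Size of the labels of a point. -/
def ptSize (x : Pnt) : ℕ := ∑ k, lab x k

/-- A row of a gauge operator applied to coefficients (the block is finite). -/
def rowSum (G : Fin 3) (F : ∀ p, BlkMat p) (c : Pnt → ℂ) (x : Pnt) : ℂ :=
  ∑ z : PntK (lab x (G + 1) + lab x (G + 2)), gaugeEntry G F x z.out * c z.out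

/-- The regular radial solution in the flat core: `∑ (s/4)^k / (k! (a+2)_k)`. -/
def coreFn (a : ℕ) (s : ℝ) : ℝ :=
  ∑' k : ℕ, (s / 4) ^ k / ((k.factorial : ℝ) * (Nat.ascFactorial (a + 2) k : ℝ))

/-- The eigenvalue of the fixed sphere in the core. -/
def coreEig (β : ℝ) (x : Pnt) : ℝ := (lab x 2 : ℝ) * (lab x 2 + 2) / β

/-- The factor in front of `pfun` at the core triple. -/
def radialFactor (r₁ β : ℝ) (c : Pnt → ℝ → ℂ) (ξ : Pnt → ℂ) (x : Pnt) (v : Pt) : ℂ :=
  if rad v < r₁ then ξ x * (coreFn (lab x 1) (coreEig β x * rad v ^ 2) : ℂ)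
  else c x (rad v) / (rad v : ℂ) ^ lab x 1

/-- The series. -/
def seriesFun (r₁ β : ℝ) (c : Pnt → ℝ → ℂ) (ξ : Pnt → ℂ) (v : Pt) : ℂ :=
  ∑' x : Pnt, radialFactor r₁ β c ξ x v * pfun x (coreTriple v)

/-- Near the radius `r` the metric is a gauge metric and the coefficients solve its equation. -/
def LocalSolution (g : MetricField) (c : Pnt → ℝ → ℂ) (r : ℝ) : Prop :=
  ∃ (G : Fin 3) (M : ℝ → Matrix (Fin 6) (Fin 6) ℝ) (ε : ℝ), 0 < ε ∧
    (∀ s ∈ Set.Ioo (r - ε) (r + ε), (M s).PosDef ∧ ∀ i j, ContDiffAt ℝ ∞ (fun u => M u i j) s) ∧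
    (∀ s, (M s).IsSymm) ∧
    (∀ v ∈ chartV, rad v ∈ Set.Ioo (r - ε) (r + ε) → g v = gaugeMetric G M v) ∧
    ∀ x : Pnt, ∀ s ∈ Set.Ioo (r - ε) (r + ε),
      deriv (deriv (c x)) s + ((1 / 2 * ((M s)⁻¹ * mderiv M s).trace : ℝ) : ℂ) * deriv (c x) s =
        rowSum G (linkOp (linkQ (M s))) (fun y => c y s) x

/-- All hypotheses on the coefficients. -/
structure IsCoeff (g : MetricField) (r₁ r₂ β : ℝ) (c : Pnt → ℝ → ℂ) (ξ : Pnt → ℂ) : Prop where
  r₁_pos : 0 < r₁
  r₁_lt : r₁ < r₂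
  β_pos : 0 < β
  core_metric : ∀ v ∈ chartU, rad v < r₂ → g v = coreMetric β v
  core : ∀ x r, 0 < r → r < r₂ →
    c x r = ξ x * ((r ^ lab x 1 * coreFn (lab x 1) (coreEig β x * r ^ 2) : ℝ) : ℂ)
  core_decay : ∀ p : ℕ, ∃ C : ℝ, ∀ x,
    ((ptSize x : ℝ) + 1) ^ p * ‖ξ x‖ * r₂ ^ lab x 1 * coreFn (lab x 1) (coreEig β x * r₂ ^ 2) ≤ C
  smooth : ∀ x, ContDiffOn ℝ ∞ (c x) (Set.Ioi 0)
  decay : ∀ a b : ℝ, 0 < a → a ≤ b → ∀ m p : ℕ, ∃ C : ℝ, ∀ x, ∀ r ∈ Set.Icc a b,
    ((ptSize x : ℝ) + 1) ^ p * ‖iteratedDerivWithin m (c x) (Set.Ioi 0) r‖ ≤ C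
  local_solution : ∀ r, 0 < r → LocalSolution g c r

theorem rad_pos {v : Pt} (hv : v ∈ chartV) : 0 < rad v := Chart.qlen_pos hv.2

theorem continuousOn_rad : ContinuousOn rad chartU :=
  Real.continuous_sqrt.comp_continuousOn
    (SeriesAux.contDiff_qnsq.continuous.comp_continuousOn chart_contDiffOn.1.continuousOn)

theorem coreEig_bounds {β : ℝ} (hβ : 0 < β) (x : Pnt) :
    0 ≤ coreEig β x ∧ coreEig β x ≤ (1 + 1 / β) * SeriesAux.wt x ^ 2 := by
  refine ⟨div_nonneg (by positivity) hβ.le, ?_⟩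
  have h := SeriesAux.lab_add_one_le_wt x 2
  have h0 : (0 : ℝ) ≤ lab x 2 := Nat.cast_nonneg _
  rw [coreEig, div_le_iff₀ hβ, show (1 + 1 / β) * SeriesAux.wt x ^ 2 * β =
    β * SeriesAux.wt x ^ 2 + SeriesAux.wt x ^ 2 by field_simp]
  nlinarith [mul_nonneg hβ.le (sq_nonneg (SeriesAux.wt x))]

theorem pfun_coreTriple (x : Pnt) {v : Pt} (hv : v ∈ chartV) :
    pfun x (coreTriple v) = (rad v : ℂ) ^ lab x 1 * pointFun x v := by
  have e : coreTriple v = Function.update (linkTriple v) 1 (rad v • linkTriple v 1) := by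
    funext k
    fin_cases k
    · rfl
    · simp [coreTriple, linkTriple, PointFun.qH_smul, smul_smul, (rad_pos hv).ne']
    · rfl
  rw [e, pfun_smul, pointFun]

/-- A term near the core. -/
theorem term_core {g : MetricField} {r₁ r₂ β : ℝ} {c : Pnt → ℝ → ℂ} {ξ : Pnt → ℂ}
    (h : IsCoeff g r₁ r₂ β c ξ) (x : Pnt) {v : Pt} (hv : rad v < r₂) :
    radialFactor r₁ β c ξ x v * pfun x (coreTriple v) =
      ξ x * ((SeriesAux.cFn (lab x 1) (coreEig β x * qnsq (xC v)) : ℝ) : ℂ) *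
        pfun x ![1, PointFun.sH (xC v), PointFun.sH (thC v)] := by
  have e : qnsq (xC v) = rad v ^ 2 := (Chart.qlen_sq (xC v)).symm
  have e2 : coreTriple v = ![1, PointFun.sH (xC v), PointFun.sH (thC v)] := rfl
  rw [e, e2, radialFactor]
  split_ifs with h1
  · rfl
  · have hr : 0 < rad v := h.r₁_pos.trans_le (not_lt.1 h1)
    have hne : ((rad v : ℂ)) ^ lab x 1 ≠ 0 := pow_ne_zero _ (by exact_mod_cast hr.ne')
    rw [h.core x _ hr hv, Complex.ofReal_mul, Complex.ofReal_pow,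
      show coreFn (lab x 1) (coreEig β x * rad v ^ 2) =
        SeriesAux.cFn (lab x 1) (coreEig β x * rad v ^ 2) from rfl]
    field_simp

/-- A term away from the core. -/
theorem term_link {g : MetricField} {r₁ r₂ β : ℝ} {c : Pnt → ℝ → ℂ} {ξ : Pnt → ℂ}
    (h : IsCoeff g r₁ r₂ β c ξ) (x : Pnt) {v : Pt} (hv : v ∈ chartV) :
    radialFactor r₁ β c ξ x v * pfun x (coreTriple v) = c x (rad v) * pointFun x v := by
  have hr := rad_pos hv
  rw [radialFactor, pfun_coreTriple x hv]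
  split_ifs with h1
  · rw [h.core x _ hr (h1.trans h.r₁_lt), Complex.ofReal_mul, Complex.ofReal_pow]
    ring
  · have hne : ((rad v : ℂ)) ^ lab x 1 ≠ 0 := pow_ne_zero _ (by exact_mod_cast hr.ne')
    field_simp

theorem coreFamily {g : MetricField} {r₁ r₂ β : ℝ} {c : Pnt → ℝ → ℂ} {ξ : Pnt → ℂ}
    (h : IsCoeff g r₁ r₂ β c ξ) :
    SeriesAux.SumFam (chartU ∩ rad ⁻¹' Set.Iio r₂) fun x v =>
      ξ x * ((SeriesAux.cFn (lab x 1) (coreEig β x * qnsq (xC v)) : ℝ) : ℂ) *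
        pfun x ![1, PointFun.sH (xC v), PointFun.sH (thC v)] :=
  SeriesAux.core_sumFam (continuousOn_rad.isOpen_inter_preimage chartU_isOpen isOpen_Iio)
    Set.inter_subset_left (h.r₁_pos.trans h.r₁_lt) (fun _ hv => le_of_lt hv.2)
    (le_add_of_nonneg_right (one_div_nonneg.2 h.β_pos.le))
    (fun x => (coreEig_bounds h.β_pos x).1) (fun x => (coreEig_bounds h.β_pos x).2) h.core_decay

theorem linkFamily {g : MetricField} {r₁ r₂ β : ℝ} {c : Pnt → ℝ → ℂ} {ξ : Pnt → ℂ}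
    (h : IsCoeff g r₁ r₂ β c ξ) :
    SeriesAux.SumFam chartV fun x v => c x (rad v) * pointFun x v :=
  SeriesAux.link_sumFam h.smooth h.decay

theorem seriesFun_contDiff {g : MetricField} {r₁ r₂ β : ℝ} {c : Pnt → ℝ → ℂ} {ξ : Pnt → ℂ}
    (h : IsCoeff g r₁ r₂ β c ξ) : ContDiffOn ℝ ∞ (seriesFun r₁ β c ξ) chartU := by
  intro v hv
  by_cases hv' : rad v < r₂
  · have hm : v ∈ chartU ∩ rad ⁻¹' Set.Iio r₂ := ⟨hv, hv'⟩
    have hF := coreFamily h
    refine ((hF.contDiffOn.contDiffAt (hF.isOpen.mem_nhds hm)).congr_of_eventuallyEq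
      (Filter.eventually_of_mem (hF.isOpen.mem_nhds hm)
        fun w hw => tsum_congr fun x => term_core h x hw.2)).contDiffWithinAt
  · have hm : v ∈ chartV := ⟨hv, fun h0 => hv' (by
      simpa [rad, h0, qnsq] using h.r₁_pos.trans h.r₁_lt)⟩
    have hF := linkFamily h
    refine ((hF.contDiffOn.contDiffAt (hF.isOpen.mem_nhds hm)).congr_of_eventuallyEq
      (Filter.eventually_of_mem (hF.isOpen.mem_nhds hm)
        fun w hw => tsum_congr fun x => term_link h x hw)).contDiffWithinAt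

theorem seriesFun_harmonic {g : MetricField} {r₁ r₂ β : ℝ} {c : Pnt → ℝ → ℂ} {ξ : Pnt → ℂ}
    (hg : ∀ i j, ContDiffOn ℝ ∞ (fun v => g v i j) chartU)
    (hp : ∀ v ∈ chartU, (g v).PosDef) (h : IsCoeff g r₁ r₂ β c ξ) {v : Pt} (hv : v ∈ chartU) :
    laplacian g (fun w => (seriesFun r₁ β c ξ w).re) v = 0 ∧
      laplacian g (fun w => (seriesFun r₁ β c ξ w).im) v = 0 := by
  have hV : ∀ (L : ℂ →L[ℝ] ℝ), ∀ w ∈ chartV,
      laplacian g (fun z => L (seriesFun r₁ β c ξ z)) w = 0 := by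
    intro L w hw
    obtain ⟨G, M, ε, hε, hM, hsym, hgM, hode⟩ := h.local_solution (rad w) (rad_pos hw)
    have e : (fun z => L (seriesFun r₁ β c ξ z)) =ᶠ[𝓝 w]
        fun z => L (∑' x, c x (rad z) * pointFun x z) :=
      Filter.eventually_of_mem (Chart.isOpen_chartV.mem_nhds hw)
        fun z hz => congrArg L (tsum_congr fun x => term_link h x hz)
    rw [SeriesAux.laplacian_congr (Filter.EventuallyEq.refl _ g) e]
    exact SeriesAux.laplacian_link_eq_zero h.smooth (linkFamily h) hw hε hM hsym hgM hode L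
  have hL : ∀ L : ℂ →L[ℝ] ℝ, laplacian g (fun z => L (seriesFun r₁ β c ξ z)) v = 0 := by
    intro L
    by_cases hx : xC v = 0
    swap
    · exact hV L v ⟨hv, hx⟩
    set f : ℝ → Pt := fun t => v + t • (Pi.single 4 1 : Pt)
    have hf : Filter.Tendsto f (𝓝[≠] 0) (𝓝 v) := by
      have hc : Continuous f := by fun_prop
      simpa [f] using (hc.tendsto 0).mono_left nhdsWithin_le_nhds
    have hc := (SeriesAux.continuousOn_laplacian chartU_isOpen hg hp
      (L.contDiff.comp_contDiffOn (seriesFun_contDiff h))).continuousAt (chartU_isOpen.mem_nhds hv)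
    have h4 : v 4 = 0 := by simpa [xC] using congrFun hx 1
    refine tendsto_nhds_unique (hc.tendsto.comp hf) (tendsto_const_nhds.congr' ?_)
    filter_upwards [hf.eventually (chartU_isOpen.mem_nhds hv), self_mem_nhdsWithin] with t ht ht0
    refine (hV L (f t) ⟨ht, fun h0 => ht0 ?_⟩).symm
    simpa [f, xC, h4] using congrFun h0 1
  exact ⟨hL Complex.reCLM, hL Complex.imCLM⟩

/-- Pointwise bound by the coefficients. -/
theorem seriesFun_bound {g : MetricField} {r₁ r₂ β : ℝ} {c : Pnt → ℝ → ℂ} {ξ : Pnt → ℂ}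
    (h : IsCoeff g r₁ r₂ β c ξ) {v : Pt} (hv : v ∈ chartV) :
    ‖seriesFun r₁ β c ξ v‖ ≤ ∑' x : Pnt, ((ptSize x : ℝ) + 1) ^ 3 * ‖c x (rad v)‖ := by
  obtain ⟨C, hC⟩ := h.decay (rad v) (rad v) (rad_pos hv) le_rfl 0 (3 + 24)
  have hsum : Summable fun x : Pnt => ((ptSize x : ℝ) + 1) ^ 3 * ‖c x (rad v)‖ := by
    refine (SeriesAux.summable_wt.mul_left C).of_nonneg_of_le (fun x => by positivity) fun x => ?_
    have hx := hC x (rad v) ⟨le_rfl, le_rfl⟩
    rw [iteratedDerivWithin_zero, pow_add] at hx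
    rw [le_mul_inv_iff₀ (by have := SeriesAux.one_le_wt x; positivity)]
    exact le_trans (le_of_eq (mul_right_comm _ _ _)) hx
  refine tsum_of_norm_bounded hsum.hasSum fun x => ?_
  rw [term_link h x hv, norm_mul, mul_comm]
  refine mul_le_mul_of_nonneg_right ((pfun_norm_le x _).trans ?_) (norm_nonneg _)
  have hn : ∀ k, ‖linkTriple v k‖ = 1 := fun k => by
    fin_cases k
    · simp [linkTriple]
    · exact SeriesAux.norm_slot_dir hv
    · exact SeriesAux.norm_slot_th hv.1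
  simp only [hn, one_pow, Finset.prod_const_one, mul_one]
  exact SeriesAux.prod_lab_le x

/-- At a fixed radius a combination of series vanishes only if its coefficients do. -/
theorem seriesFun_injective {r₁ β : ℝ} {r : ℝ} (hr : r₁ ≤ r) (hr₁ : 0 < r₁) {c : Pnt → ℝ → ℂ}
    {ξ : Pnt → ℂ} (hc : ∀ p : ℕ, ∃ C : ℝ, ∀ x, ((ptSize x : ℝ) + 1) ^ p * ‖c x r‖ ≤ C)
    (h : ∀ v ∈ chartV, rad v = r → seriesFun r₁ β c ξ v = 0) : ∀ x, c x r = 0 := by
  have hr0 : 0 < r := hr₁.trans_le hr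
  refine SeriesAux.pfun_tsum_independent (c := fun x => c x r) ?_ fun q hq0 hq => ?_
  · obtain ⟨C, hC⟩ := hc (6 + 24)
    refine (SeriesAux.summable_wt.mul_left C).of_nonneg_of_le (fun x => by positivity) fun x => ?_
    have hx : SeriesAux.wt x ^ (6 + 24) * ‖c x r‖ ≤ C := hC x
    rw [pow_add] at hx
    have hw := SeriesAux.one_le_wt x
    rw [le_mul_inv_iff₀ (by positivity)]
    have h2 : (∏ k, ((lab x k : ℝ) + 1)) ^ 2 ≤ SeriesAux.wt x ^ 6 :=
      (pow_le_pow_left₀ (Finset.prod_nonneg fun k _ => by positivity)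
        (SeriesAux.prod_lab_le x) 2).trans_eq (by ring)
    calc ‖c x r‖ * (∏ k, ((lab x k : ℝ) + 1)) ^ 2 * SeriesAux.wt x ^ 24
        ≤ ‖c x r‖ * SeriesAux.wt x ^ 6 * SeriesAux.wt x ^ 24 := by gcongr
      _ ≤ C := le_trans (le_of_eq (by ring)) hx
  set u := star (q 1) with hu
  set th := star (q 2) with hth
  set v : Pt := ![Real.exp (r * u.re) * th.re, Real.exp (r * u.re) * th.imI,
    Real.exp (r * u.re) * th.imJ, Real.exp (r * u.re) * th.imK, r * u.imI, r * u.imJ, r * u.imK]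
  have hnu : ‖u‖ = 1 := by rw [hu, norm_star, hq]
  have hnt : ‖th‖ = 1 := by rw [hth, norm_star, hq]
  have hsq : ∀ p : ℍ[ℝ], ‖p‖ = 1 → p.re * p.re + p.imI * p.imI + p.imJ * p.imJ + p.imK * p.imK = 1 :=
    fun p hp => by
      have := Quaternion.normSq_eq_norm_mul_self p
      rw [hp, Quaternion.normSq_def'] at this
      linarith
  have hy : yPart v = Real.exp (r * u.re) • ![th.re, th.imI, th.imJ, th.imK] := by
    funext i
    fin_cases i <;> rfl
  have hlen : Real.sqrt (qnsq (yPart v)) = Real.exp (r * u.re) := by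
    rw [hy, Chart.qnsq_eq]
    simp only [Pi.smul_apply, smul_eq_mul, Matrix.cons_val_zero, Matrix.cons_val_one,
      Matrix.cons_val]
    refine Eq.trans (congrArg Real.sqrt ?_) (Real.sqrt_mul_self (Real.exp_pos (r * u.re)).le)
    linear_combination (Real.exp (r * u.re) * Real.exp (r * u.re)) * hsq th hnt
  have hxC : xC v = r • ![u.re, u.imI, u.imJ, u.imK] := by
    funext i
    rw [xC, hlen, Real.log_exp]
    fin_cases i <;> rfl
  have hrad : rad v = r := by
    rw [rad, hxC, Chart.qnsq_eq]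
    simp only [Pi.smul_apply, smul_eq_mul, Matrix.cons_val_zero, Matrix.cons_val_one,
      Matrix.cons_val]
    refine Eq.trans (congrArg Real.sqrt ?_) (Real.sqrt_mul_self hr0.le)
    linear_combination (r * r) * hsq u hnu
  have hth' : thC v = ![th.re, th.imI, th.imJ, th.imK] := by
    rw [thC, hlen, hy, smul_smul, inv_mul_cancel₀ (Real.exp_pos (r * u.re)).ne', one_smul]
  have hvV : v ∈ chartV := by
    refine ⟨fun h0 => (Real.exp_pos (r * u.re)).ne ?_, fun h0 => hr0.ne ?_⟩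
    · rw [← hlen, h0]; simp [qnsq]
    · rw [← hrad, rad, h0]; simp [qnsq]
  have hlink : linkTriple v = q := by
    funext k
    fin_cases k
    · exact hq0.symm
    · show star (qH ((rad v)⁻¹ • xC v)) = q 1
      rw [hrad, hxC, smul_smul, inv_mul_cancel₀ hr0.ne', one_smul,
        show qH ![u.re, u.imI, u.imJ, u.imK] = u from rfl, hu, star_star]
    · show star (qH (thC v)) = q 2
      rw [hth', show qH ![th.re, th.imI, th.imJ, th.imK] = th from rfl, hth, star_star]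
  rw [← hlink, ← h v hvV hrad]
  refine tsum_congr fun x => ?_
  rw [radialFactor, if_neg (by rw [hrad]; exact not_lt.2 hr), pfun_coreTriple x hvV, hrad]
  have hne : ((r : ℂ)) ^ lab x 1 ≠ 0 := pow_ne_zero _ (by exact_mod_cast hr0.ne')
  rw [pointFun]
  field_simp

end Vale.Agent.P225
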