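import Vale.Agent.P225.Geom.Chart
import Vale.Agent.P225.SU2.Functions

/-!
P225, module C: point functions on the chart and the action of the gauge frames on them. In every
gauge the three slots can be moved, by a common left factor, to `1` in the slot of the gauge and
the conjugate directions of its two coordinates elsewhere.
-/

noncomputable section

namespace Vale.Agent.P225

open Matrix SU2
open scoped ContDiff Quaternion

/-- Four coordinates as a quaternion. -/
def qH (q : Q4) : ℍ[ℝ] := ⟨q 0, q 1, q 2, q 3⟩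

/-- The three slots on the link: `1, conj (x/|x|), conj θ`. -/
def linkTriple (v : Pt) : Fin 3 → ℍ[ℝ] :=
  ![1, star (qH ((rad v)⁻¹ • xC v)), star (qH (thC v))]

/-- The function of a point on the chart (independent of `r`). -/
def pointFun (y : Pnt) (v : Pt) : ℂ := pfun y (linkTriple v)

/-- A link index as a factor and a direction. -/
def lkDir (i : Fin 6) : Bool × Fin 3 := ((lkSplit i).1 == 1, (lkSplit i).2)

namespace PointFun

open Chart

@[simp] lemma qH_re (q : Q4) : (qH q).re = q 0 := rfl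

@[simp] lemma qH_imI (q : Q4) : (qH q).imI = q 1 := rfl

@[simp] lemma qH_imJ (q : Q4) : (qH q).imJ = q 2 := rfl

@[simp] lemma qH_imK (q : Q4) : (qH q).imK = q 3 := rfl

lemma imUnit_eq (k : Fin 3) : imUnit k = qH (qunit k) := by
  fin_cases k <;> simp [imUnit, qH, qunit] <;> rfl

lemma qH_qmul (p q : Q4) : qH (qmul p q) = qH p * qH q := by
  ext <;> simp [qmul]

lemma qH_qconj (q : Q4) : qH (qconj q) = star (qH q) := by
  ext <;> simp [qconj]

lemma qH_smul (r : ℝ) (q : Q4) : qH (r • q) = r • qH q := by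
  ext <;> simp

lemma norm_qH (q : Q4) : ‖qH q‖ = qlen q := by
  rw [qlen, ← Real.sqrt_mul_self (norm_nonneg (qH q)), ← Quaternion.normSq_eq_norm_mul_self,
    Quaternion.normSq_def', qnsq_eq]
  congr 1
  simp
  ring

lemma qH_mul_star (q : Q4) : qH q * star (qH q) = (qnsq q : ℍ[ℝ]) := by
  rw [Quaternion.self_mul_star, Quaternion.normSq_def', qnsq_eq]
  congr 1
  simp
  ring

/-- Conjugate coordinates as a linear map. -/
def sH : Q4 →L[ℝ] ℍ[ℝ] :=
  LinearMap.toContinuousLinearMap
    { toFun := fun q => star (qH q)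
      map_add' := fun a b => by ext <;> simp <;> ring
      map_smul' := fun r a => by ext <;> simp }

@[simp] lemma sH_apply (q : Q4) : sH q = star (qH q) := rfl

lemma sH_qfield (k : Fin 3) (q : Q4) :
    sH (qfield k q) = -(2⁻¹ : ℝ) • (imUnit k * sH q) := by
  rw [imUnit_eq]
  fin_cases k <;> ext <;> simp [qfield, qmul, qunit] <;> ring

/-- The three slots moved to the gauge `G`. -/
def gaugeTriple (G : Fin 3) (v : Pt) : Fin 3 → ℍ[ℝ] := fun k =>
  if k = G + 1 then sH (qdir (gMap G v).1) else if k = G + 2 then sH (qdir (gMap G v).2) else 1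

lemma gaugeTriple_self (G : Fin 3) (v : Pt) : gaugeTriple G v G = 1 := by
  fin_cases G <;> simp [gaugeTriple]

/-- The slots differ by a common left factor of norm one. -/
lemma exists_left (G : Fin 3) {v : Pt} (hv : v ∈ chartV) :
    ∃ h : ℍ[ℝ], ‖h‖ = 1 ∧ gaugeTriple G v = fun k => h * linkTriple v k := by
  have hr : qlen (xC v) ≠ 0 := (qlen_pos hv.2).ne'
  have hθ := qlen_thC hv.1
  have hxu : ‖qH ((rad v)⁻¹ • xC v)‖ = 1 := by
    rw [qH_smul, norm_smul, norm_qH, Real.norm_eq_abs, rad_eq, Function.comp_apply,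
      abs_inv, abs_of_pos (qlen_pos hv.2), inv_mul_cancel₀ hr]
  have hx1 : qH ((rad v)⁻¹ • xC v) * star (qH ((rad v)⁻¹ • xC v)) = 1 := by
    rw [Quaternion.self_mul_star, Quaternion.normSq_eq_norm_mul_self, hxu]
    simp
  have ht1 : qH (thC v) * star (qH (thC v)) = 1 := by
    rw [qH_mul_star, qnsq_thC hv.1]
    simp
  match G with
  | 0 =>
    refine ⟨1, norm_one, funext fun k => ?_⟩
    fin_cases k <;> simp [gaugeTriple, linkTriple, gMap, qdir, hθ, rad_eq, qH_smul]
  | 1 =>
    refine ⟨qH ((rad v)⁻¹ • xC v), hxu, funext fun k => ?_⟩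
    fin_cases k
    · simp [gaugeTriple, linkTriple, gMap, qdir, qlen_qconj, rad_eq, qH_smul, qH_qconj]
    · simpa [gaugeTriple, linkTriple] using hx1.symm
    · simp [gaugeTriple, linkTriple, gMap, qdir, qlen_qconj, qlen_qmul, hθ, rad_eq, qH_smul,
        qH_qmul, qH_qconj]
  | 2 =>
    refine ⟨qH (thC v), (norm_qH _).trans hθ, funext fun k => ?_⟩
    fin_cases k
    · simp [gaugeTriple, linkTriple, gMap, qdir, qlen_qconj, hθ, qH_qconj]
    · simp [gaugeTriple, linkTriple, gMap, qdir, qlen_qconj, qlen_qmul, hθ, rad_eq, qH_smul,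
        qH_qmul, qH_qconj]
    · simpa [gaugeTriple, linkTriple] using ht1.symm

lemma pointFun_eq (y : Pnt) (G : Fin 3) {v : Pt} (hv : v ∈ chartV) :
    pointFun y v = pfun y (gaugeTriple G v) := by
  obtain ⟨h, hh, he⟩ := exists_left G hv
  rw [he, pfun_mul_left y hh]
  rfl

/-- Derivative of the moved slots along a gauge frame field. -/
lemma hasFDerivAt_gaugeTriple (G : Fin 3) {v : Pt} (hv : v ∈ chartV) :
    HasFDerivAt (gaugeTriple G) (fderiv ℝ (gaugeTriple G) v) v ∧
      ∀ a w, fderiv ℝ (gaugeTriple G) v (gaugeFrame G a v) w =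
        if w = G + 1 then sH (fderiv ℝ qdir (gMap G v).1 (gModel G a (gMap G v)).1)
        else if w = G + 2 then sH (fderiv ℝ qdir (gMap G v).2 (gModel G a (gMap G v)).2)
        else 0 := by
  have hd := ((contDiffAt_gMap hv.1 G).differentiableAt (by simp)).hasFDerivAt
  obtain ⟨h1, h2⟩ := gMap_ne_zero hv G
  have e1 := sH.hasFDerivAt.comp v
    ((hasFDerivAt_qdir h1).differentiableAt.hasFDerivAt.comp v (hasFDerivAt_fst.comp v hd))
  have e2 := sH.hasFDerivAt.comp v
    ((hasFDerivAt_qdir h2).differentiableAt.hasFDerivAt.comp v (hasFDerivAt_snd.comp v hd))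
  set D := ContinuousLinearMap.pi fun k : Fin 3 =>
    if k = G + 1 then sH.comp ((fderiv ℝ qdir (gMap G v).1).comp
      ((ContinuousLinearMap.fst ℝ Q4 Q4).comp (fderiv ℝ (gMap G) v)))
    else if k = G + 2 then sH.comp ((fderiv ℝ qdir (gMap G v).2).comp
      ((ContinuousLinearMap.snd ℝ Q4 Q4).comp (fderiv ℝ (gMap G) v)))
    else (0 : Pt →L[ℝ] ℍ[ℝ]) with hD
  have hT : HasFDerivAt (gaugeTriple G) D v := by
    refine hasFDerivAt_pi.2 fun k => ?_
    simp only [gaugeTriple]
    split_ifs
    · exact e1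
    · exact e2
    · exact hasFDerivAt_const _ _
  refine ⟨hT.differentiableAt.hasFDerivAt, fun a w => ?_⟩
  rw [hT.fderiv, hD, ContinuousLinearMap.pi_apply]
  split_ifs <;> simp [fderiv_gMap_gauge hv]

lemma fderiv_pointFun (y : Pnt) (G : Fin 3) {v : Pt} (hv : v ∈ chartV) (w : Pt) :
    fderiv ℝ (pointFun y) v w =
      fderiv ℝ (pfun y) (gaugeTriple G v) (fderiv ℝ (gaugeTriple G) v w) := by
  have h : pointFun y =ᶠ[nhds v] pfun y ∘ gaugeTriple G :=
    Filter.eventually_of_mem (isOpen_chartV.mem_nhds hv) fun z hz => pointFun_eq y G hz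
  rw [h.fderiv_eq, fderiv_comp v ((pfun_contDiff y (n := 1)).differentiable (by simp) _)
    (hasFDerivAt_gaugeTriple G hv).1.differentiableAt]
  rfl

lemma fderiv_qdir_self {q : Q4} (hq : q ≠ 0) (r : ℝ) :
    fderiv ℝ qdir q (r • qdir q) = 0 := by
  have h := (qlen_pos hq).ne'
  rw [map_smul, qdir, map_smul, fderiv_qdir_apply hq,
    show ∑ i, q i * q i = qnsq q from rfl, ← qlen_sq,
    show ((qlen q)⁻¹) ^ 3 * qlen q ^ 2 = (qlen q)⁻¹ by field_simp, sub_self, smul_zero, smul_zero]

end PointFun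

open Chart PointFun

theorem pointFun_radial {y : Pnt} {v : Pt} (hv : v ∈ chartV) (G : Fin 3) :
    fderiv ℝ (pointFun y) v (gaugeFrame G 0 v) = 0 := by
  obtain ⟨h1, h2⟩ := gMap_ne_zero hv G
  have h : fderiv ℝ (gaugeTriple G) v (gaugeFrame G 0 v) = 0 := by
    ext1 w
    rw [(hasFDerivAt_gaugeTriple G hv).2 0 w]
    simp only [gModel, Fin.cons_zero, fderiv_qdir_self h1, fderiv_qdir_self h2, map_zero,
      ite_self, Pi.zero_apply]
  rw [fderiv_pointFun y G hv, h, map_zero]

/-- Frame fields of every gauge act on point functions by the block operators. -/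
theorem pointFun_deriv {y : Pnt} {v : Pt} (hv : v ∈ chartV) (G : Fin 3) (i : Fin 6) :
    fderiv ℝ (pointFun y) v (gaugeFrame G (lk i) v) =
      ∑ z : PntK (lab y (G + 1) + lab y (G + 2)),
        pointFun z.out v * gaugeEntry G (fun p => opX p (lkDir i)) z.out y := by
  obtain ⟨h1, h2⟩ := gMap_ne_zero hv G
  have h : fderiv ℝ (gaugeTriple G) v (gaugeFrame G (lk i) v) =
      Pi.single (dirSlot G (lkDir i).1)
        (-(2⁻¹ : ℝ) • (imUnit (lkDir i).2 * gaugeTriple G v (dirSlot G (lkDir i).1))) := by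
    obtain ⟨s, k, rfl⟩ := exists_lkMk i
    ext1 w
    rw [(hasFDerivAt_gaugeTriple G hv).2 _ w, gModel_lk]
    match s with
    | 0 =>
      simp only [lkDir, lkSplit_lkMk, gLin_lk0, fderiv_qdir_qfield h1, sH_qfield, map_zero,
        show ((0 : Fin 2) == 1) = false from rfl, dirSlot, ite_self]
      by_cases hw : w = G + 1
      · subst hw; simp [gaugeTriple]
      · simp [hw]
    | 1 =>
      simp only [lkDir, lkSplit_lkMk, gLin_lk1, fderiv_qdir_qfield h2, sH_qfield, map_zero,
        show ((1 : Fin 2) == 1) = true from rfl, dirSlot]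
      by_cases hw : w = G + 2
      · subst hw
        have hne : G + 2 ≠ G + 1 := by fin_cases G <;> decide
        simp [gaugeTriple, hne]
      · simp [hw]
  rw [fderiv_pointFun y G hv, h,
    pfun_deriv G (lkDir i) y le_rfl (gaugeTriple G v) (gaugeTriple_self G v)]
  exact Finset.sum_congr rfl fun z _ => by rw [pointFun_eq z.out G hv]

end Vale.Agent.P225
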